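import Vale.Agent.P214.LOC.Whit

/-!
# P214, block LOC-WHIT, corollaries

* `whitney_sum_le`: bounded overlap in integrated form, for a measure on any space `Ω` with a map
  `X : Ω → F` to the base;
* `lipRad_max`: `max (a * ρ) R₀` is an admissible radius function when `ρ` is `K`-Lipschitz and
  `a * K ≤ 1/8`;
* `whitney'`: the partition with the Lipschitz bound and the integrated overlap bound.
-/

open MeasureTheory Set Metric Module Filter
open scoped ENNReal Topology ContDiff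

set_option linter.all false

namespace Vale.Agent.P214.LOC

section

variable {F : Type*} [NormedAddCommGroup F] [NormedSpace ℝ F] [FiniteDimensional ℝ F]

lemma sum_lintegral_le_lintegral_sum {ι W : Type*} [MeasurableSpace W] (s : Finset ι)
    (μ : Measure W) (f : ι → W → ℝ≥0∞) :
    ∑ i ∈ s, ∫⁻ w, f i w ∂μ ≤ ∫⁻ w, ∑ i ∈ s, f i w ∂μ := by
  classical
  induction s using Finset.induction_on with
  | empty => simp
  | insert i s hi ih =>
    rw [Finset.sum_insert hi]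
    have : ∀ w, ∑ j ∈ insert i s, f j w = f i w + ∑ j ∈ s, f j w := fun w =>
      Finset.sum_insert hi
    simp only [this]
    calc ∫⁻ w, f i w ∂μ + ∑ j ∈ s, ∫⁻ w, f j w ∂μ
        ≤ ∫⁻ w, f i w ∂μ + ∫⁻ w, ∑ j ∈ s, f j w ∂μ := by gcongr
      _ ≤ _ := le_lintegral_add _ _

/-- bounded overlap in integrated form -/
theorem whitney_sum_le {P : Finset F} {R : F → ℝ} {R₀ C : ℝ} (hR₀ : 0 < R₀)
    (hR : ∀ x, R₀ ≤ R x) (hC : ∀ x, ((P.filter fun p => dist p x ≤ 4 * R p + R x).card : ℝ) ≤ C)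
    {Ω : Type*} [MeasurableSpace Ω] (μ : Measure Ω) (X : Ω → F) (B : F → Set Ω)
    (hB : ∀ p ∈ P, ∀ w ∈ B p, dist (X w) p ≤ 4 * R p) (hBm : ∀ p ∈ P, MeasurableSet (B p))
    (U : Set Ω) (hBU : ∀ p ∈ P, B p ⊆ U) (f : Ω → ℝ≥0∞) :
    ∑ p ∈ P, ∫⁻ w in B p, f w ∂μ ≤ ENNReal.ofReal C * ∫⁻ w in U, f w ∂μ := by
  classical
  have h1 : ∀ p ∈ P, ∫⁻ w in B p, f w ∂μ = ∫⁻ w in U, (B p).indicator f w ∂μ := by
    intro p hp
    rw [lintegral_indicator (hBm p hp), Measure.restrict_restrict (hBm p hp),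
      inter_eq_self_of_subset_left (hBU p hp)]
  have hpt : ∀ w, ∑ p ∈ P, (B p).indicator f w ≤ ENNReal.ofReal C * f w := by
    intro w
    have e1 : ∑ p ∈ P, (B p).indicator f w = ∑ p ∈ P.filter (fun p => w ∈ B p), f w := by
      rw [Finset.sum_filter]
      exact Finset.sum_congr rfl fun p _ => by by_cases hx : w ∈ B p <;> simp [hx]
    rw [e1, Finset.sum_const, nsmul_eq_mul]
    gcongr
    have h2 : ((P.filter (fun p => w ∈ B p)).card : ℝ) ≤ C := by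
      refine le_trans ?_ (hC (X w))
      exact_mod_cast Finset.card_le_card (fun p hp => by
        rw [Finset.mem_filter] at hp ⊢
        refine ⟨hp.1, ?_⟩
        have h3 := hB p hp.1 w hp.2
        have h4 : 0 < R (X w) := hR₀.trans_le (hR _)
        rw [dist_comm] at h3
        linarith)
    calc ((P.filter (fun p => w ∈ B p)).card : ℝ≥0∞)
        = ENNReal.ofReal ((P.filter (fun p => w ∈ B p)).card : ℝ) := by
          rw [ENNReal.ofReal_natCast]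
      _ ≤ ENNReal.ofReal C := ENNReal.ofReal_le_ofReal h2
  calc ∑ p ∈ P, ∫⁻ w in B p, f w ∂μ = ∑ p ∈ P, ∫⁻ w in U, (B p).indicator f w ∂μ :=
        Finset.sum_congr rfl h1
    _ ≤ ∫⁻ w in U, ∑ p ∈ P, (B p).indicator f w ∂μ := by
        exact sum_lintegral_le_lintegral_sum P _ _
    _ ≤ ∫⁻ w in U, ENNReal.ofReal C * f w ∂μ := lintegral_mono hpt
    _ = _ := lintegral_const_mul' _ _ ENNReal.ofReal_ne_top

/-- admissible radius functions -/
lemma lipRad_max {ρ : F → ℝ} {a K R₀ : ℝ} (ha : 0 ≤ a) (haK : a * K ≤ 1 / 8)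
    (hρ : ∀ x y, |ρ x - ρ y| ≤ K * dist x y) : LipRad fun x => max (a * ρ x) R₀ := by
  intro x y
  calc |max (a * ρ x) R₀ - max (a * ρ y) R₀| ≤ |a * ρ x - a * ρ y| := by
        have := abs_max_sub_max_le_abs (a * ρ x) (a * ρ y) R₀
        exact this
    _ = a * |ρ x - ρ y| := by rw [← mul_sub, abs_mul, abs_of_nonneg ha]
    _ ≤ a * (K * dist x y) := by gcongr; exact hρ x y
    _ ≤ 1 / 8 * dist x y := by
        rw [← mul_assoc]; gcongr
    _ = dist x y / 8 := by ring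

end

section

variable (F : Type*) [NormedAddCommGroup F] [InnerProductSpace ℝ F] [FiniteDimensional ℝ F]

/-- **Whitney partition**, with Lipschitz constants (use `whitney_sum_le` for sums of measures) -/
theorem whitney' : ∃ C : ℝ, 1 ≤ C ∧ ∀ (A : Set F) (R : F → ℝ) (R₀ : ℝ), Bornology.IsBounded A →
    0 < R₀ → (∀ x, R₀ ≤ R x) → LipRad R →
    ∃ (P : Finset F) (χ : F → F → ℝ), (P : Set F) ⊆ A ∧
      (∀ p ∈ P, ContDiff ℝ ∞ (χ p)) ∧
      (∀ p ∈ P, ∀ x, 0 ≤ χ p x ∧ χ p x ≤ 1) ∧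
      (∀ p ∈ P, ∀ x, R p ≤ dist x p → χ p x = 0) ∧
      (∀ p ∈ P, ∀ x y, |χ p x - χ p y| ≤ C / R p * dist x y) ∧
      (∀ p ∈ P, ∀ x, ‖fderiv ℝ (χ p) x‖ ≤ C / R p) ∧
      (∀ p ∈ P, ∀ x, ‖fderiv ℝ (fderiv ℝ (χ p)) x‖ ≤ C / R p ^ 2) ∧
      (∀ x, ∑ p ∈ P, χ p x ≤ 1) ∧
      (∃ U : Set F, IsOpen U ∧ A ⊆ U ∧ ∀ x ∈ U, ∑ p ∈ P, χ p x = 1) ∧
      (∀ x, ((P.filter fun p => dist p x ≤ 4 * R p + R x).card : ℝ) ≤ C) ∧
      (∀ c ∈ P, ∀ d ∈ P, c ≠ d → (R c + R d) / 8 ≤ dist c d) := by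
  obtain ⟨C, hC1, hC⟩ := whitney F
  refine ⟨C, hC1, fun A R R₀ hA hR₀ hR hL => ?_⟩
  obtain ⟨P, χ, h1, h2, h3, h4, h5, h6, h7, h8, h9, h10⟩ := hC A R R₀ hA hR₀ hR hL
  refine ⟨P, χ, h1, h2, h3, h4, fun p hp x y => ?_, h5, h6, h7, h8, h9, h10⟩
  · have := Convex.norm_image_sub_le_of_norm_fderiv_le (𝕜 := ℝ) (f := χ p) (C := C / R p)
      (s := univ) (fun z _ => (h2 p hp).differentiable (by simp) z) (fun z _ => h5 p hp z)
      convex_univ (mem_univ y) (mem_univ x)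
    rw [dist_eq_norm]
    exact this

end

end Vale.Agent.P214.LOC
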