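import Vale.Agent.P214.FV.Planes

/-!
# P214, block LOC-CMP, part A: linear algebra of two planes

`tilt_diff_le`: change of the tilt under a change of the reference plane.
`abs_tr_sub_le`: `tr (L (P - P_S))` for an operator `L` with values in `S`.
-/

open Set Filter Topology MeasureTheory Metric
open scoped RealInnerProductSpace

set_option linter.all false

namespace Vale.Agent.P214.LOC

open Vale.Agent.P214.FV

variable {E : Type*} [NormedAddCommGroup E] [InnerProductSpace ℝ E] [FiniteDimensional ℝ E]

variable {S T P : Submodule ℝ E}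

/-- `‖P - P_S‖ ≤ √(2 tilt)` -/
lemma norm_sub_le_sqrt (h : Module.finrank ℝ P = Module.finrank ℝ S) :
    ‖P.starProjection - S.starProjection‖ ≤ √(2 * tilt S P.starProjection) := by
  refine ContinuousLinearMap.opNorm_le_bound _ (Real.sqrt_nonneg _) fun v => ?_
  have h0 := tilt_nonneg P S
  have h2 := norm_sq_sub_le P S h v
  have h3 : ‖(P.starProjection - S.starProjection) v‖ ^ 2 ≤
      (√(2 * tilt S P.starProjection) * ‖v‖) ^ 2 := by
    rw [mul_pow, Real.sq_sqrt (by positivity)]
    exact h2
  exact le_of_sq_le_sq h3 (by positivity)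

lemma hs_le_norm (A : E →L[ℝ] E) : hs A ≤ Module.finrank ℝ E * ‖A‖ ^ 2 := by
  unfold hs
  calc ∑ k, ‖A (stdOrthonormalBasis ℝ E k)‖ ^ 2
      ≤ ∑ _k : Fin (Module.finrank ℝ E), ‖A‖ ^ 2 := by
        refine Finset.sum_le_sum fun k _ => ?_
        have := A.le_opNorm (stdOrthonormalBasis ℝ E k)
        rw [(stdOrthonormalBasis ℝ E).norm_eq_one, mul_one] at this
        gcongr
    _ = _ := by simp

/-- the tilts against two planes -/
lemma tilt_diff_le (hP : Module.finrank ℝ P = Module.finrank ℝ S)
    (hT : Module.finrank ℝ T = Module.finrank ℝ S) {κ : ℝ}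
    (hN : ‖T.starProjection - S.starProjection‖ ≤ κ) :
    |tilt T P.starProjection - tilt S P.starProjection| ≤
      2 * Module.finrank ℝ E * (κ * √(tilt S P.starProjection) + κ ^ 2) := by
  have hκ : 0 ≤ κ := (norm_nonneg _).trans hN
  set N := T.starProjection - S.starProjection with hNdef
  set n : ℝ := (Module.finrank ℝ E : ℝ) with hn
  have hn0 : 0 ≤ n := by positivity
  have e0 := tilt_nonneg P S
  have h1 : tilt T P.starProjection - tilt S P.starProjection =
      -(tr (N.comp (P.starProjection - S.starProjection)) + tr (N.comp S.starProjection)) := by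
    rw [← tr_add, ← ContinuousLinearMap.comp_add, sub_add_cancel, hNdef,
      ContinuousLinearMap.sub_comp, tr_sub, tilt_eq, tilt_eq]
    ring
  have h2 : tr (N.comp S.starProjection) = -tilt T S.starProjection := by
    rw [hNdef, ContinuousLinearMap.sub_comp, tr_sub, tilt_eq, star_comp_self]
    ring
  have h3 : tilt T S.starProjection ≤ n * κ ^ 2 := by
    have h4 := hs_sub S T hT.symm
    have h5 := hs_le_norm (S.starProjection - T.starProjection)
    have h6 : ‖S.starProjection - T.starProjection‖ ≤ κ := by rwa [norm_sub_rev]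
    have h7 : ‖S.starProjection - T.starProjection‖ ^ 2 ≤ κ ^ 2 := by gcongr
    have h8 := tilt_nonneg S T
    nlinarith [mul_le_mul_of_nonneg_left h7 hn0]
  have h4 : |tr (N.comp (P.starProjection - S.starProjection))| ≤
      n * (κ * √(2 * tilt S P.starProjection)) := by
    refine (abs_tr_le _).trans ?_
    gcongr
    refine (ContinuousLinearMap.opNorm_comp_le _ _).trans ?_
    gcongr
    exact norm_sub_le_sqrt hP
  have h5 : √(2 * tilt S P.starProjection) ≤ 2 * √(tilt S P.starProjection) := by
    rw [Real.sqrt_mul (by norm_num)]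
    gcongr
    rw [Real.sqrt_le_left (by norm_num)]
    norm_num
  have h6 : 0 ≤ tilt T S.starProjection := tilt_nonneg S T
  rw [h1, abs_neg, h2]
  calc |tr (N.comp (P.starProjection - S.starProjection)) + -tilt T S.starProjection|
      ≤ |tr (N.comp (P.starProjection - S.starProjection))| + |-tilt T S.starProjection| :=
        abs_add_le _ _
    _ ≤ n * (κ * (2 * √(tilt S P.starProjection))) + n * κ ^ 2 := by
        rw [abs_neg, abs_of_nonneg h6]
        gcongr
        exact h4.trans (by gcongr)
    _ ≤ 2 * n * (κ * √(tilt S P.starProjection) + κ ^ 2) := by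
        have : 0 ≤ n * κ ^ 2 := by positivity
        nlinarith

/-- `‖(1 - P) P_S v‖² ≤ tilt ‖v‖²` -/
lemma norm_sq_co_comp_le (h : Module.finrank ℝ P = Module.finrank ℝ S) (v : E) :
    ‖co P (S.starProjection v)‖ ^ 2 ≤ tilt S P.starProjection * ‖v‖ ^ 2 := by
  rw [← tr_defect_eq_tilt P S h, ← hs_co_star]
  exact norm_sq_le_hs ((co P).comp S.starProjection) v

/-- trace against the difference of the planes: an operator with values in `S` -/
lemma abs_tr_sub_le (h : Module.finrank ℝ P = Module.finrank ℝ S) {L : E →L[ℝ] E}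
    (hL : S.starProjection.comp L = L) {a b : ℝ} (ha : ‖L.comp S.starProjection‖ ≤ a)
    (hb : ‖L.comp (co S)‖ ≤ b) :
    |tr (L.comp (P.starProjection - S.starProjection))| ≤
      2 * Module.finrank ℝ E * (a * tilt S P.starProjection + b * √(tilt S P.starProjection)) := by
  set n : ℝ := (Module.finrank ℝ E : ℝ) with hn
  have hn0 : 0 ≤ n := by positivity
  set p := S.starProjection with hp
  set π := P.starProjection with hπ
  have e0 := tilt_nonneg P S
  have hid : p + co S = ContinuousLinearMap.id ℝ E := by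
    ext v; exact star_add_co S v
  -- `M = (P - P_S) P_S`
  set M : E →L[ℝ] E := (π - p).comp p with hM
  have h1 : tr (L.comp (π - p)) = tr (L.comp M) := by
    conv_lhs => rw [← hL]
    rw [ContinuousLinearMap.comp_assoc, tr_comp_comm, ContinuousLinearMap.comp_assoc]
  have h2 : L.comp M = (L.comp p).comp (p.comp M) + (L.comp (co S)).comp M := by
    ext v
    simp only [ContinuousLinearMap.comp_apply, _root_.add_apply]
    rw [hp, star_self, ← map_add, star_add_co]
  have h3 : ‖p.comp M‖ ≤ tilt S π := by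
    refine ContinuousLinearMap.opNorm_le_bound _ e0 fun v => ?_
    -- `p (π - p) p v = - p (1-π) p v`, quadratic form `‖(1-π) p v‖²`
    have e1 : ∀ v, p.comp M v = -(p (co P (p v))) := by
      intro v
      simp only [hM, ContinuousLinearMap.comp_apply, ContinuousLinearMap.sub_apply, co_apply,
        map_sub]
      rw [hp, star_self, star_self]
      abel
    rw [e1, norm_neg]
    set z := p (co P (p v)) with hz
    have e4 : p z = z := by rw [hz, hp, star_self]
    have e2 : ‖z‖ ^ 2 ≤ ‖co P (p z)‖ * ‖co P (p v)‖ := by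
      have e3 : ‖z‖ ^ 2 = ⟪co P (p z), co P (p v)⟫ := by
        rw [inner_co, co_self]
        calc ‖z‖ ^ 2 = ⟪z, z⟫ := (real_inner_self_eq_norm_sq z).symm
          _ = ⟪z, p (co P (p v))⟫ := rfl
          _ = ⟪p z, co P (p v)⟫ := (inner_star S z (co P (p v))).symm
      rw [e3]
      exact real_inner_le_norm _ _
    have e5 : ‖co P (p z)‖ ≤ √(tilt S π) * ‖z‖ := by
      refine le_of_sq_le_sq ?_ (by positivity)
      rw [mul_pow, Real.sq_sqrt e0]
      exact norm_sq_co_comp_le h z
    have e6 : ‖co P (p v)‖ ≤ √(tilt S π) * ‖v‖ := by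
      refine le_of_sq_le_sq ?_ (by positivity)
      rw [mul_pow, Real.sq_sqrt e0]
      exact norm_sq_co_comp_le h v
    have e7 : ‖z‖ ^ 2 ≤ tilt S π * ‖z‖ * ‖v‖ := by
      calc ‖z‖ ^ 2 ≤ ‖co P (p z)‖ * ‖co P (p v)‖ := e2
        _ ≤ (√(tilt S π) * ‖z‖) * (√(tilt S π) * ‖v‖) := by gcongr
        _ = √(tilt S π) ^ 2 * ‖z‖ * ‖v‖ := by ring
        _ = _ := by rw [Real.sq_sqrt e0]
    rcases (norm_nonneg z).eq_or_lt with h0 | h0
    · rw [← h0]; positivity
    · nlinarith
  have h4 : ‖M‖ ≤ 2 * √(tilt S π) := by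
    have h5 : √(2 * tilt S π) ≤ 2 * √(tilt S π) := by
      rw [Real.sqrt_mul (by norm_num)]
      gcongr
      rw [Real.sqrt_le_left (by norm_num)]
      norm_num
    calc ‖M‖ ≤ ‖π - p‖ * ‖p‖ := ContinuousLinearMap.opNorm_comp_le _ _
      _ ≤ √(2 * tilt S π) * 1 := by
          gcongr
          · exact norm_sub_le_sqrt h
          · exact S.starProjection_norm_le
      _ ≤ 2 * √(tilt S π) := by rw [mul_one]; exact h5
  have ha0 : 0 ≤ a := (norm_nonneg _).trans ha
  have hb0 : 0 ≤ b := (norm_nonneg _).trans hb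
  rw [h1, h2, tr_add]
  have h6 : |tr ((L.comp p).comp (p.comp M))| ≤ n * (a * tilt S π) := by
    refine (abs_tr_le _).trans ?_
    gcongr
    refine (ContinuousLinearMap.opNorm_comp_le _ _).trans ?_
    gcongr
  have h7 : |tr ((L.comp (co S)).comp M)| ≤ n * (b * (2 * √(tilt S π))) := by
    refine (abs_tr_le _).trans ?_
    gcongr
    refine (ContinuousLinearMap.opNorm_comp_le _ _).trans ?_
    gcongr
  refine (abs_add_le _ _).trans ?_
  have h8 : 0 ≤ n * (a * tilt S π) := by positivity
  nlinarith

end Vale.Agent.P214.LOC
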