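import Vale.Agent.P214.FM.Field
import Vale.Agent.P214.LOC.CmpA

/-!
# P214, block LOC-CMP, part B: affine Fermi coordinates

`a ∈ T`, `pa = a + w a`, `D = D0 w a`, `J = D⁻¹`, `K = p J`.  Affine Fermi coordinates of the tangent
plane at `a`: foot `Xa y = a + K (y - pa)`, height `eta y = q J (y - pa)`.
-/

open Set Filter Topology MeasureTheory Metric
open scoped RealInnerProductSpace ContDiff

set_option linter.all false

namespace Vale.Agent.P214.LOC

open Vale.Agent.P214.FV Vale.Agent.P214.FM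

variable {E : Type*} [NormedAddCommGroup E] [InnerProductSpace ℝ E] [FiniteDimensional ℝ E]

/-- `p D⁻¹` -/
noncomputable def Ka (T : Submodule ℝ E) (w : E → E) (a : E) : E →L[ℝ] E :=
  T.starProjection.comp (J0 w a)

/-- foot point in affine Fermi coordinates -/
noncomputable def Xa (T : Submodule ℝ E) (w : E → E) (a y : E) : E :=
  a + Ka T w a (y - (a + w a))

/-- height in affine Fermi coordinates -/
noncomputable def eta (T : Submodule ℝ E) (w : E → E) (a y : E) : E :=
  co T (J0 w a (y - (a + w a)))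

/-- the second order remainder of `w` at `a` -/
noncomputable def wr (w : E → E) (a x : E) : E := w x - w a - fderiv ℝ w a (x - a)

/-- the increment of the differential -/
noncomputable def dA (w : E → E) (a x : E) : E →L[ℝ] E := fderiv ℝ w x - fderiv ℝ w a

section

variable {T : Submodule ℝ E} {w : E → E} {ε κ : ℝ} {a : E}

lemma Ka_apply (v : E) : Ka T w a v = T.starProjection (J0 w a v) := rfl

lemma norm_Ka_apply_le (v : E) : ‖Ka T w a v‖ ≤ ‖v‖ :=
  (norm_star_le T _).trans (norm_J0_apply_le w a v)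

lemma norm_Ka_le : ‖Ka T w a‖ ≤ 1 :=
  ContinuousLinearMap.opNorm_le_bound _ zero_le_one fun v => by
    rw [one_mul]; exact norm_Ka_apply_le v

lemma star_Ka (v : E) : T.starProjection (Ka T w a v) = Ka T w a v := star_self T _

lemma Ka_mem (v : E) : Ka T w a v ∈ T := T.starProjection_apply_mem _

lemma Xa_mem (ha : a ∈ T) (y : E) : Xa T w a y ∈ T := T.add_mem ha (Ka_mem _)

lemma star_Xa (ha : a ∈ T) (y : E) : T.starProjection (Xa T w a y) = Xa T w a y :=
  Submodule.starProjection_eq_self_iff.2 (Xa_mem ha y)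

variable (hw : Ref T w ε κ)
include hw

/-- `K P_a = K` -/
lemma Ka_PS (v : E) : Ka T w a (PS T w a v) = Ka T w a v := by
  rw [Ka_apply, hw.J0_PS, star_self]; rfl

/-- `D K = P_a` -/
lemma D0_Ka (v : E) : D0 w a (Ka T w a v) = PS T w a v := (hw.PS_eq a v).symm

/-- `q J P_a = 0` -/
lemma co_J0_PS (v : E) : co T (J0 w a (PS T w a v)) = 0 := by
  rw [hw.J0_PS, co_apply, star_self, sub_self]

lemma norm_dA_apply_le (x v : E) : ‖dA w a x v‖ ≤ κ * ‖T.starProjection (x - a)‖ * ‖v‖ := by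
  have h1 : ∀ z ∈ (univ : Set E), HasFDerivWithinAt (fderiv ℝ w) (D2 w z) univ z := fun z _ =>
    (hw.diff1 z).hasFDerivAt.hasFDerivWithinAt
  have h2 := (convex_univ (𝕜 := ℝ) (E := E)).norm_image_sub_le_of_norm_hasFDerivWithin_le
    (f := fderiv ℝ w) (f' := D2 w) (C := κ) h1 (fun z _ => hw.norm_D2_le z)
    (mem_univ (T.starProjection a)) (mem_univ (T.starProjection x))
  rw [hw.fderiv_base, hw.fderiv_base, ← map_sub] at h2
  exact ((dA w a x).le_opNorm v).trans (by gcongr; exact h2)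

lemma norm_adj_dA_apply_le (x v : E) :
    ‖adj (dA w a x) v‖ ≤ κ * ‖T.starProjection (x - a)‖ * ‖v‖ := by
  refine (norm_adj_apply_le _ _).trans ?_
  gcongr
  have hk := hw.knn
  exact ContinuousLinearMap.opNorm_le_bound _ (by positivity) fun v => norm_dA_apply_le hw x v

/-- the increment of the differential between two points -/
lemma norm_fderiv_sub_apply_le (x x' v : E) :
    ‖(fderiv ℝ w x - fderiv ℝ w x') v‖ ≤ κ * ‖T.starProjection (x - x')‖ * ‖v‖ :=
  norm_dA_apply_le (a := x') hw x v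

lemma norm_adj_fderiv_sub_apply_le (x x' v : E) :
    ‖adj (fderiv ℝ w x - fderiv ℝ w x') v‖ ≤ κ * ‖T.starProjection (x - x')‖ * ‖v‖ :=
  norm_adj_dA_apply_le (a := x') hw x v

lemma hasFDerivAt_wr (x : E) : HasFDerivAt (wr w a) (dA w a x) x := by
  unfold wr dA
  have h1 := (hw.diff x).hasFDerivAt.sub_const (w a)
  have h2 : HasFDerivAt (fun x => fderiv ℝ w a (x - a)) (fderiv ℝ w a) x :=
    (fderiv ℝ w a).hasFDerivAt.comp x ((hasFDerivAt_id x).sub_const a)
  exact h1.sub h2

lemma wr_base (x : E) : wr w a (T.starProjection x) = wr w a x := by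
  unfold wr
  rw [hw.base, map_sub, map_sub, hw.fderiv_star]

lemma star_wr (x : E) : T.starProjection (wr w a x) = 0 := by
  unfold wr
  rw [map_sub, map_sub, hw.perp, hw.perp, hw.star_fderiv]
  simp

/-- difference of the remainders -/
lemma norm_wr_sub_le (ha : a ∈ T) {x x' : E} {ρ : ℝ} (h1 : ‖T.starProjection x - a‖ ≤ ρ)
    (h2 : ‖T.starProjection x' - a‖ ≤ ρ) :
    ‖wr w a x - wr w a x'‖ ≤ κ * ρ * ‖T.starProjection (x - x')‖ := by
  rw [← wr_base hw x, ← wr_base hw x', map_sub]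
  have hpa : T.starProjection a = a := Submodule.starProjection_eq_self_iff.2 ha
  have hconv : Convex ℝ (closedBall a ρ) := convex_closedBall a ρ
  refine hconv.norm_image_sub_le_of_norm_hasFDerivWithin_le
    (f := wr w a) (f' := dA w a) (C := κ * ρ)
    (fun z _ => (hasFDerivAt_wr hw z).hasFDerivWithinAt) (fun z hz => ?_)
    (by rw [mem_closedBall, dist_eq_norm]; exact h2) (by rw [mem_closedBall, dist_eq_norm]; exact h1)
  have hk := hw.knn
  have hρ : 0 ≤ ρ := (norm_nonneg _).trans h1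
  refine ContinuousLinearMap.opNorm_le_bound _ (by positivity) fun v => ?_
  refine (norm_dA_apply_le hw z v).trans ?_
  gcongr
  rw [mem_closedBall, dist_eq_norm] at hz
  exact (norm_star_le T _).trans hz

lemma norm_wr_le (ha : a ∈ T) (x : E) :
    ‖wr w a x‖ ≤ κ * ‖T.starProjection x - a‖ * ‖T.starProjection x - a‖ := by
  have hpa : T.starProjection a = a := Submodule.starProjection_eq_self_iff.2 ha
  have h1 := norm_wr_sub_le hw ha (x := x) (x' := a) (ρ := ‖T.starProjection x - a‖) le_rfl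
    (by rw [hpa, sub_self, norm_zero]; positivity)
  have h2 : wr w a a = 0 := by unfold wr; simp
  rwa [h2, sub_zero, map_sub, hpa] at h1

/-- **the two Fermi coordinates**: `y = Ψ(Y)`, `u = q Y` -/
lemma Psi_sub (ha : a ∈ T) {h₁ : ℝ} (h0 : 0 < h₁) {Y : E} (hY : ‖co T Y‖ ≤ h₁) :
    Psi T w h₁ Y - (a + w a) =
      D0 w a (Y - a) + (wr w a Y - adj (dA w a Y) (co T Y)) := by
  have hpa : T.starProjection a = a := Submodule.starProjection_eq_self_iff.2 ha
  have e1 : adj (fderiv ℝ w a) a = 0 := by rw [← hpa, hw.adj_fderiv_star]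
  rw [Psi, ret_eq h0 hY, D0_apply, wr, dA]
  rw [map_sub adj, ContinuousLinearMap.sub_apply, map_sub (adj (fderiv ℝ w a)), e1,
    ← hw.adj_fderiv_co a Y]
  abel

/-- the displacement of the foot point and the height -/
lemma J0_Psi_sub (ha : a ∈ T) {h₁ : ℝ} (h0 : 0 < h₁) {Y : E} (hY : ‖co T Y‖ ≤ h₁) :
    J0 w a (Psi T w h₁ Y - (a + w a)) = (Y - a) + J0 w a (wr w a Y - adj (dA w a Y) (co T Y)) := by
  rw [Psi_sub hw ha h0 hY, map_add, J0_D0]

/-- the displacement vector -/
lemma Xa_Psi (ha : a ∈ T) {h₁ : ℝ} (h0 : 0 < h₁) {Y : E} (hY : ‖co T Y‖ ≤ h₁) :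
    Xa T w a (Psi T w h₁ Y) = T.starProjection Y +
      Ka T w a (wr w a Y - adj (dA w a Y) (co T Y)) := by
  have hpa : T.starProjection a = a := Submodule.starProjection_eq_self_iff.2 ha
  rw [Xa, Ka_apply, J0_Psi_sub hw ha h0 hY, map_add, map_sub, hpa, Ka_apply]
  abel

lemma eta_Psi (ha : a ∈ T) {h₁ : ℝ} (h0 : 0 < h₁) {Y : E} (hY : ‖co T Y‖ ≤ h₁) :
    eta T w a (Psi T w h₁ Y) = co T Y +
      co T (J0 w a (wr w a Y - adj (dA w a Y) (co T Y))) := by
  have hpa : T.starProjection a = a := Submodule.starProjection_eq_self_iff.2 ha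
  have hca : co T a = 0 := by rw [co_apply, hpa, sub_self]
  rw [eta, J0_Psi_sub hw ha h0 hY, map_add, map_sub, hca, sub_zero]

/-- size of the displacement -/
lemma norm_disp_le (ha : a ∈ T) (Y : E) :
    ‖wr w a Y - adj (dA w a Y) (co T Y)‖ ≤
      κ * ‖T.starProjection Y - a‖ * (‖T.starProjection Y - a‖ + ‖co T Y‖) := by
  have hpa : T.starProjection a = a := Submodule.starProjection_eq_self_iff.2 ha
  have h1 := norm_wr_le hw ha Y
  have h2 := norm_adj_dA_apply_le (a := a) hw Y (co T Y)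
  rw [map_sub, hpa] at h2
  calc _ ≤ ‖wr w a Y‖ + ‖adj (dA w a Y) (co T Y)‖ := norm_sub_le _ _
    _ ≤ _ := by rw [mul_add]; exact add_le_add h1 h2

lemma norm_Xa_sub_le (ha : a ∈ T) {h₁ : ℝ} (h0 : 0 < h₁) {Y : E} (hY : ‖co T Y‖ ≤ h₁) :
    ‖Xa T w a (Psi T w h₁ Y) - T.starProjection Y‖ ≤
      κ * ‖T.starProjection Y - a‖ * (‖T.starProjection Y - a‖ + ‖co T Y‖) := by
  rw [Xa_Psi hw ha h0 hY, add_sub_cancel_left]
  exact (norm_Ka_apply_le _).trans (norm_disp_le hw ha Y)

lemma norm_eta_sub_le (ha : a ∈ T) {h₁ : ℝ} (h0 : 0 < h₁) {Y : E} (hY : ‖co T Y‖ ≤ h₁) :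
    ‖eta T w a (Psi T w h₁ Y) - co T Y‖ ≤
      κ * ‖T.starProjection Y - a‖ * (‖T.starProjection Y - a‖ + ‖co T Y‖) := by
  rw [eta_Psi hw ha h0 hY, add_sub_cancel_left]
  exact (norm_co_le T _).trans ((norm_J0_apply_le w a _).trans (norm_disp_le hw ha Y))

/-- `P_a (y - pa) = D (X - a)` -/
lemma PS_sub_eq (y : E) : PS T w a (y - (a + w a)) = D0 w a (Xa T w a y - a) := by
  rw [Xa, add_sub_cancel_left, D0_Ka hw]

lemma norm_Xa_sub_le_PS (y : E) : ‖Xa T w a y - a‖ ≤ ‖PS T w a (y - (a + w a))‖ := by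
  rw [PS_sub_eq hw]
  exact norm_le_norm_D0 w a _

/-- in terms of the projection onto `T_a` -/
lemma Xa_eq_PS (y : E) :
    Xa T w a y = a + Ka T w a (PS T w a y - PS T w a (a + w a)) := by
  rw [Xa, ← map_sub, Ka_PS hw]

/-- change of the tangent plane -/
lemma norm_PS_sub_le (ha : a ∈ T) (x : E) :
    ‖PS T w x - PS T w a‖ ≤ 4 * κ * ‖T.starProjection x - a‖ := by
  have hpa : T.starProjection a = a := Submodule.starProjection_eq_self_iff.2 ha
  have hk := hw.knn
  have h1 := (convex_univ (𝕜 := ℝ) (E := E)).norm_image_sub_le_of_norm_hasFDerivWithin_le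
    (f := PS T w) (f' := fderiv ℝ (PS T w)) (C := 4 * κ)
    (fun z _ => ((hw.contDiff_PS.differentiable (by simp)) z).hasFDerivAt.hasFDerivWithinAt)
    (fun z _ => by
      refine ContinuousLinearMap.opNorm_le_bound _ (by positivity) fun v => ?_
      refine ContinuousLinearMap.opNorm_le_bound _ (by positivity) fun x => ?_
      exact hw.norm_fderiv_PS_le z v x)
    (mem_univ (T.starProjection a)) (mem_univ (T.starProjection x))
  rwa [hw.PS_base, hw.PS_base, hpa] at h1

end

end Vale.Agent.P214.LOC
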