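import Vale.Agent.P214.LOC.CmpB

/-!
# P214, block LOC-CMP, part C: test functions and the pointwise Taylor expansion
-/

open Set Filter Topology MeasureTheory Metric
open scoped RealInnerProductSpace ContDiff

set_option linter.all false

namespace Vale.Agent.P214.LOC

open Vale.Agent.P214.FV Vale.Agent.P214.FM

variable {E : Type*} [NormedAddCommGroup E] [InnerProductSpace ℝ E] [FiniteDimensional ℝ E]

/-- test functions of the base at scale `R` -/
structure Tst (T : Submodule ℝ E) (a : E) (R : ℝ) (f : E → ℝ) : Prop where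
  smooth : ContDiff ℝ 1 f
  pos : 0 < R
  base : ∀ y, f (T.starProjection y) = f y
  le : ∀ y, |f y| ≤ 1
  d1 : ∀ y, ‖fderiv ℝ f y‖ ≤ R⁻¹
  d2 : ∀ x y, ‖fderiv ℝ f x - fderiv ℝ f y‖ ≤ R⁻¹ ^ 2 * ‖x - y‖
  supp : ∀ y, R ≤ ‖T.starProjection y - a‖ → f y = 0

section

variable {T : Submodule ℝ E} {a : E} {R : ℝ} {f : E → ℝ}

lemma Tst.diff (hf : Tst T a R f) : Differentiable ℝ f := hf.smooth.differentiable (by norm_num)

lemma Tst.smooth1 (hf : Tst T a R f) : Continuous (fderiv ℝ f) :=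
  hf.smooth.continuous_fderiv (by norm_num)

lemma Tst.abs_sub_le (hf : Tst T a R f) (x x' : E) : |f x - f x'| ≤ R⁻¹ * ‖x - x'‖ := by
  have h := (convex_univ (𝕜 := ℝ) (E := E)).norm_image_sub_le_of_norm_hasFDerivWithin_le
    (f := f) (f' := fderiv ℝ f) (C := R⁻¹) (fun z _ => (hf.diff z).hasFDerivAt.hasFDerivWithinAt)
    (fun z _ => hf.d1 z) (mem_univ x') (mem_univ x)
  rwa [Real.norm_eq_abs] at h

lemma Tst.taylor (hf : Tst T a R f) (x x' : E) :
    |f x - f x' - fderiv ℝ f x' (x - x')| ≤ R⁻¹ ^ 2 * ‖x - x'‖ ^ 2 := by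
  have hR := hf.pos
  -- the function `f - Df(x')` has derivative bounded by `R⁻² ‖z - x'‖`
  have hconv : Convex ℝ (closedBall x' ‖x - x'‖) := convex_closedBall _ _
  have h1 : ∀ z ∈ closedBall x' ‖x - x'‖, HasFDerivWithinAt (fun z => f z - fderiv ℝ f x' z)
      (fderiv ℝ f z - fderiv ℝ f x') (closedBall x' ‖x - x'‖) z := fun z _ =>
    ((hf.diff z).hasFDerivAt.sub (fderiv ℝ f x').hasFDerivAt).hasFDerivWithinAt
  have h2 : ∀ z ∈ closedBall x' ‖x - x'‖, ‖fderiv ℝ f z - fderiv ℝ f x'‖ ≤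
      R⁻¹ ^ 2 * ‖x - x'‖ := by
    intro z hz
    refine (hf.d2 z x').trans ?_
    rw [mem_closedBall, dist_eq_norm] at hz
    gcongr
  have h3 := hconv.norm_image_sub_le_of_norm_hasFDerivWithin_le h1 h2
    (mem_closedBall_self (norm_nonneg _)) (by rw [mem_closedBall, dist_eq_norm])
  rw [Real.norm_eq_abs] at h3
  calc |f x - f x' - fderiv ℝ f x' (x - x')|
      = |f x - fderiv ℝ f x' x - (f x' - fderiv ℝ f x' x')| := by
        congr 1; rw [map_sub]; ring
    _ ≤ R⁻¹ ^ 2 * ‖x - x'‖ * ‖x - x'‖ := h3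
    _ = _ := by ring

/-- outside the support the derivative vanishes -/
lemma Tst.fderiv_eq_zero (hf : Tst T a R f) {x : E} (hx : R < ‖T.starProjection x - a‖) :
    fderiv ℝ f x = 0 := by
  have hc : Continuous fun x : E => ‖T.starProjection x - a‖ := by fun_prop
  have h1 : f =ᶠ[𝓝 x] fun _ => (0:ℝ) := by
    filter_upwards [(isOpen_lt continuous_const hc).mem_nhds hx] with z hz
    exact hf.supp z (le_of_lt hz)
  rw [h1.fderiv_eq]
  simp

lemma Tst.abs_fderiv_le (hf : Tst T a R f) (x v : E) : |fderiv ℝ f x v| ≤ R⁻¹ * ‖v‖ := by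
  have := (fderiv ℝ f x).le_opNorm v
  rw [Real.norm_eq_abs] at this
  exact this.trans (by gcongr; exact hf.d1 x)

/-- `G = Df K w_a` -/
noncomputable def Gf (T : Submodule ℝ E) (w : E → E) (a : E) (f : E → ℝ) (x : E) : ℝ :=
  fderiv ℝ f x (Ka T w a (wr w a x))

/-- the first order term of the height -/
noncomputable def Hf (T : Submodule ℝ E) (w : E → E) (a : E) (f : E → ℝ) (x e : E) : ℝ :=
  fderiv ℝ f x (Ka T w a (adj (dA w a x) e))

end

/-- the numerical part of the expansion -/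
lemma expansion_num {κ R r U : ℝ} (hk : 0 ≤ κ) (hR : 0 < R) (hr0 : 0 ≤ r) (hU0 : 0 ≤ U)
    (hrR : r ≤ 6 / 5 * R) :
    R⁻¹ ^ 2 * (κ * r * (r + U)) ^ 2 + R⁻¹ * (κ * (17 / 16 * r) * (κ * r * (r + U))) +
      R⁻¹ * (κ * (κ * r * (r + U)) * U + κ * (17 / 16 * r) * (κ * r * (r + U))) ≤
      32 * κ ^ 2 * (R ^ 2 + U ^ 2) := by
  set c := R⁻¹ * r with hc
  have hc1 : c ≤ 6 / 5 := by
    rw [hc, inv_mul_le_iff₀ hR]; linarith
  have hc0 : 0 ≤ c := by positivity
  set B := 36 / 25 * R ^ 2 + U ^ 2 with hB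
  have hB0 : 0 ≤ B := by positivity
  have hM : (r + U) ^ 2 ≤ 2 * B := by
    have h1 : r ^ 2 ≤ (6 / 5 * R) ^ 2 := by gcongr
    rw [hB]
    nlinarith [sq_nonneg (r - U)]
  have hMM : r * (r + U) ≤ 2 * B := by
    have : r * (r + U) ≤ (r + U) ^ 2 := by nlinarith
    linarith
  have hMU : (r + U) * U ≤ 2 * B := by
    have : (r + U) * U ≤ (r + U) ^ 2 := by nlinarith
    linarith
  have m1 : c ^ 2 * (r + U) ^ 2 ≤ 36 / 25 * (2 * B) := by
    calc c ^ 2 * (r + U) ^ 2 ≤ (6 / 5) ^ 2 * (2 * B) := by gcongr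
      _ = _ := by ring
  have m2 : c * (r * (r + U)) ≤ 6 / 5 * (2 * B) := by gcongr
  have m3 : c * ((r + U) * U) ≤ 6 / 5 * (2 * B) := by gcongr
  have e : R⁻¹ ^ 2 * (κ * r * (r + U)) ^ 2 + R⁻¹ * (κ * (17 / 16 * r) * (κ * r * (r + U))) +
      R⁻¹ * (κ * (κ * r * (r + U)) * U + κ * (17 / 16 * r) * (κ * r * (r + U))) =
      κ ^ 2 * (c ^ 2 * (r + U) ^ 2 + 17 / 8 * (c * (r * (r + U))) + c * ((r + U) * U)) := by
    rw [hc]; ring
  rw [e]
  calc κ ^ 2 * (c ^ 2 * (r + U) ^ 2 + 17 / 8 * (c * (r * (r + U))) + c * ((r + U) * U))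
      ≤ κ ^ 2 * (36 / 25 * (2 * B) + 17 / 8 * (6 / 5 * (2 * B)) + 6 / 5 * (2 * B)) := by
        gcongr
    _ ≤ κ ^ 2 * (32 * (R ^ 2 + U ^ 2)) := by
        gcongr
        rw [hB]
        nlinarith [sq_nonneg R, sq_nonneg U]
    _ = _ := by ring

section

variable {T : Submodule ℝ E} {w : E → E} {ε κ : ℝ} {a : E} {R : ℝ} {f : E → ℝ} {h₁ : ℝ} {Y : E}

/-- **The pointwise expansion.** -/
lemma expansion (hw : Ref T w ε κ) (hf : Tst T a R f) (ha : a ∈ T) (h0 : 0 < h₁)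
    (hY : ‖co T Y‖ ≤ h₁) (hκ : κ * (‖T.starProjection Y - a‖ + ‖co T Y‖) ≤ 1 / 16)
    (hr : ‖T.starProjection Y - a‖ ≤ 6 / 5 * R) :
    |f Y - f (Xa T w a (Psi T w h₁ Y)) -
      (-Gf T w a f (Xa T w a (Psi T w h₁ Y)) +
        Hf T w a f (Xa T w a (Psi T w h₁ Y)) (eta T w a (Psi T w h₁ Y)))| ≤
      32 * κ ^ 2 * (R ^ 2 + ‖co T Y‖ ^ 2) := by
  have hk := hw.knn
  have hR := hf.pos
  set y := Psi T w h₁ Y with hy
  set X := Xa T w a y with hX
  set e := eta T w a y with he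
  set u := co T Y with hu
  set x := T.starProjection Y with hx
  set r := ‖x - a‖ with hrdef
  set U := ‖u‖ with hU
  have hU0 : 0 ≤ U := norm_nonneg _
  have hr0 : 0 ≤ r := norm_nonneg _
  set v := wr w a Y - adj (dA w a Y) u with hv
  have hv' : ‖v‖ ≤ κ * r * (r + U) := norm_disp_le hw ha Y
  have hXx : X - x = Ka T w a v := by rw [hX, Xa_Psi hw ha h0 hY]; abel
  have hdX : ‖X - x‖ ≤ κ * r * (r + U) := norm_Xa_sub_le hw ha h0 hY
  have hde : ‖e - u‖ ≤ κ * r * (r + U) := norm_eta_sub_le hw ha h0 hY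
  have hstx : T.starProjection x = x := star_self T Y
  have hstX : T.starProjection X = X := star_Xa ha y
  have hd : κ * r * (r + U) ≤ r / 16 := by
    calc κ * r * (r + U) = r * (κ * (r + U)) := by ring
      _ ≤ r * (1 / 16) := by gcongr
      _ = _ := by ring
  have hXa : ‖X - a‖ ≤ 17 / 16 * r := by
    calc ‖X - a‖ = ‖(X - x) + (x - a)‖ := by congr 1; abel
      _ ≤ r / 16 + r := (norm_add_le _ _).trans (by gcongr; exact hdX.trans hd)
      _ = _ := by ring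
  -- Taylor
  have t1 := hf.taylor x X
  have t2 : fderiv ℝ f X (x - X) = -fderiv ℝ f X (Ka T w a (wr w a Y)) +
      fderiv ℝ f X (Ka T w a (adj (dA w a Y) u)) := by
    have : x - X = -(Ka T w a (wr w a Y)) + Ka T w a (adj (dA w a Y) u) := by
      rw [← neg_sub, hXx, hv, map_sub]; abel
    rw [this, map_add, map_neg]
  -- replacement of `x` by `X` in the remainder
  have hρ : ‖T.starProjection Y - a‖ ≤ 17 / 16 * r := by
    have : ‖T.starProjection Y - a‖ = r := rfl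
    rw [this]; linarith
  have t3 : ‖wr w a Y - wr w a X‖ ≤ κ * (17 / 16 * r) * ‖X - x‖ := by
    have := norm_wr_sub_le hw ha (x := Y) (x' := X) (ρ := 17 / 16 * r) hρ
      (by rw [hstX]; exact hXa)
    rwa [map_sub, hstX, ← hx, norm_sub_rev x X] at this
  -- replacement in the adjoint term
  have t4 : ‖adj (dA w a Y) u - adj (dA w a X) e‖ ≤
      κ * ‖X - x‖ * U + κ * (17 / 16 * r) * ‖e - u‖ := by
    have e1 : adj (dA w a Y) u - adj (dA w a X) e =
        adj (fderiv ℝ w Y - fderiv ℝ w X) u - adj (dA w a X) (e - u) := by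
      unfold dA
      simp only [map_sub, ContinuousLinearMap.sub_apply]
      abel
    rw [e1]
    refine (norm_sub_le _ _).trans (add_le_add ?_ ?_)
    · have := norm_adj_fderiv_sub_apply_le hw Y X u
      rw [map_sub T.starProjection, hstX, ← hx, norm_sub_rev x X] at this
      exact this
    · have := norm_adj_dA_apply_le (a := a) hw X (e - u)
      rw [map_sub T.starProjection, hstX, Submodule.starProjection_eq_self_iff.2 ha] at this
      refine this.trans ?_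
      gcongr
  -- put together
  have hfY : f Y = f x := (hf.base Y).symm
  have key : f Y - f X - (-Gf T w a f X + Hf T w a f X e) =
      (f x - f X - fderiv ℝ f X (x - X)) -
        fderiv ℝ f X (Ka T w a (wr w a Y - wr w a X)) +
        fderiv ℝ f X (Ka T w a (adj (dA w a Y) u - adj (dA w a X) e)) := by
    rw [hfY, t2, Gf, Hf, map_sub (Ka T w a), map_sub (Ka T w a), map_sub (fderiv ℝ f X),
      map_sub (fderiv ℝ f X)]
    ring
  rw [key]
  have hd0 : ‖X - x‖ ≤ κ * r * (r + U) := hdX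
  have hrR : r ≤ 6 / 5 * R := hr
  have k1 : |f x - f X - fderiv ℝ f X (x - X)| ≤ R⁻¹ ^ 2 * (κ * r * (r + U)) ^ 2 := by
    refine t1.trans ?_
    rw [norm_sub_rev]
    gcongr
  have k2 : |fderiv ℝ f X (Ka T w a (wr w a Y - wr w a X))| ≤
      R⁻¹ * (κ * (17 / 16 * r) * (κ * r * (r + U))) := by
    refine (hf.abs_fderiv_le _ _).trans ?_
    gcongr
    exact (norm_Ka_apply_le _).trans (t3.trans (by gcongr))
  have k3 : |fderiv ℝ f X (Ka T w a (adj (dA w a Y) u - adj (dA w a X) e))| ≤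
      R⁻¹ * (κ * (κ * r * (r + U)) * U + κ * (17 / 16 * r) * (κ * r * (r + U))) := by
    refine (hf.abs_fderiv_le _ _).trans ?_
    gcongr
    exact (norm_Ka_apply_le _).trans (t4.trans (by gcongr))
  have hnum := expansion_num hk hR hr0 hU0 hrR
  calc |(f x - f X - fderiv ℝ f X (x - X)) - fderiv ℝ f X (Ka T w a (wr w a Y - wr w a X)) +
        fderiv ℝ f X (Ka T w a (adj (dA w a Y) u - adj (dA w a X) e))|
      ≤ |f x - f X - fderiv ℝ f X (x - X)| + |fderiv ℝ f X (Ka T w a (wr w a Y - wr w a X))| +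
        |fderiv ℝ f X (Ka T w a (adj (dA w a Y) u - adj (dA w a X) e))| :=
        (abs_add_le _ _).trans (by gcongr; exact abs_sub _ _)
    _ ≤ _ := add_le_add (add_le_add k1 k2) k3
    _ ≤ 32 * κ ^ 2 * (R ^ 2 + U ^ 2) := hnum

/-- outside the cell everything vanishes -/
lemma far_zero (hw : Ref T w ε κ) (hf : Tst T a R f) (ha : a ∈ T) (h0 : 0 < h₁)
    (hY : ‖co T Y‖ ≤ h₁) (hκ : κ * (‖T.starProjection Y - a‖ + ‖co T Y‖) ≤ 1 / 16)
    (hr : 6 / 5 * R < ‖T.starProjection Y - a‖) :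
    f Y = 0 ∧ R < ‖Xa T w a (Psi T w h₁ Y) - a‖ := by
  have hR := hf.pos
  refine ⟨hf.supp Y (by linarith), ?_⟩
  have hdX := norm_Xa_sub_le hw ha h0 hY
  set r := ‖T.starProjection Y - a‖ with hrdef
  have hr0 : 0 ≤ r := norm_nonneg _
  have hd : κ * r * (r + ‖co T Y‖) ≤ r / 16 := by
    calc κ * r * (r + ‖co T Y‖) = r * (κ * (r + ‖co T Y‖)) := by ring
      _ ≤ r * (1 / 16) := by gcongr
      _ = _ := by ring
  have h1 : r ≤ ‖Xa T w a (Psi T w h₁ Y) - a‖ + ‖Xa T w a (Psi T w h₁ Y) - T.starProjection Y‖ := by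
    calc r = ‖(Xa T w a (Psi T w h₁ Y) - a) - (Xa T w a (Psi T w h₁ Y) - T.starProjection Y)‖ := by
          rw [hrdef]; congr 1; abel
      _ ≤ _ := norm_sub_le _ _
  linarith

/-- position of the cell in the cylinder of the tangent plane -/
lemma near_cyl (hw : Ref T w ε κ) (hε : ε ≤ 1 / 16) (hR : 0 < R) (ha : a ∈ T) (h0 : 0 < h₁)
    (hY : ‖co T Y‖ ≤ h₁) (hκ : κ * (‖T.starProjection Y - a‖ + ‖co T Y‖) ≤ 1 / 16)
    (hr : ‖T.starProjection Y - a‖ ≤ 6 / 5 * R) :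
    ‖PS T w a (Psi T w h₁ Y) - PS T w a (a + w a)‖ < 2 * R := by
  letI : MeasurableSpace E := borel E
  haveI : BorelSpace E := ⟨rfl⟩
  rw [← map_sub, PS_sub_eq hw]
  refine (hw.norm_D0_apply_le hε _ _).trans_lt ?_
  have hdX := norm_Xa_sub_le hw ha h0 hY
  set r := ‖T.starProjection Y - a‖ with hrdef
  have hr0 : 0 ≤ r := norm_nonneg _
  have hd : κ * r * (r + ‖co T Y‖) ≤ r / 16 := by
    calc κ * r * (r + ‖co T Y‖) = r * (κ * (r + ‖co T Y‖)) := by ring
      _ ≤ r * (1 / 16) := by gcongr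
      _ = _ := by ring
  have h1 : ‖Xa T w a (Psi T w h₁ Y) - a‖ ≤ 17 / 16 * r := by
    calc ‖Xa T w a (Psi T w h₁ Y) - a‖
        = ‖(Xa T w a (Psi T w h₁ Y) - T.starProjection Y) + (T.starProjection Y - a)‖ := by
          congr 1; abel
      _ ≤ r / 16 + r := (norm_add_le _ _).trans (by gcongr; exact hdX.trans hd)
      _ = _ := by ring
  nlinarith

end

end Vale.Agent.P214.LOC
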