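import Vale.Agent.P214.LOC.CmpC

/-!
# P214, block LOC-CMP, part D: the field `f(X) P_a (A(X) - A(a))^* η` and its divergence
-/

open Set Filter Topology MeasureTheory Metric
open scoped RealInnerProductSpace ContDiff

set_option linter.all false

namespace Vale.Agent.P214.LOC

open Vale.Agent.P214.FV Vale.Agent.P214.FM

variable {E : Type*} [NormedAddCommGroup E] [InnerProductSpace ℝ E] [FiniteDimensional ℝ E]

/-- the inner vector of the field -/
noncomputable def gz (T : Submodule ℝ E) (w : E → E) (a y : E) : E :=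
  adj (dA w a (Xa T w a y)) (eta T w a y)

/-- the field -/
noncomputable def Zf (T : Submodule ℝ E) (w : E → E) (a : E) (f : E → ℝ) (y : E) : E :=
  f (Xa T w a y) • PS T w a (gz T w a y)

/-- the derivative of the inner vector -/
noncomputable def dgz (T : Submodule ℝ E) (w : E → E) (a y : E) : E →L[ℝ] E :=
  (Hw w (Xa T w a y) (eta T w a y)).comp (Ka T w a) +
    (adj (dA w a (Xa T w a y))).comp ((co T).comp (J0 w a))

/-- the derivative of the field -/
noncomputable def LZ (T : Submodule ℝ E) (w : E → E) (a : E) (f : E → ℝ) (y : E) : E →L[ℝ] E :=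
  ((fderiv ℝ f (Xa T w a y)).comp (Ka T w a)).smulRight (PS T w a (gz T w a y)) +
    f (Xa T w a y) • (PS T w a).comp (dgz T w a y)

section

variable {T : Submodule ℝ E} {w : E → E} {ε κ : ℝ} {a : E} {R : ℝ} {f : E → ℝ}

lemma hasFDerivAt_Xa (y : E) : HasFDerivAt (Xa T w a) (Ka T w a) y := by
  unfold Xa
  exact ((Ka T w a).hasFDerivAt.comp y ((hasFDerivAt_id y).sub_const (a + w a))).const_add a

lemma hasFDerivAt_eta (y : E) : HasFDerivAt (eta T w a) ((co T).comp (J0 w a)) y := by
  unfold eta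
  exact (co T).hasFDerivAt.comp y
    ((J0 w a).hasFDerivAt.comp y ((hasFDerivAt_id y).sub_const (a + w a)))

lemma contDiff_Xa {n : ℕ∞} : ContDiff ℝ n (Xa T w a) := by
  unfold Xa
  exact contDiff_const.add ((Ka T w a).contDiff.comp (contDiff_id.sub contDiff_const))

lemma contDiff_eta {n : ℕ∞} : ContDiff ℝ n (eta T w a) := by
  unfold eta
  exact (co T).contDiff.comp ((J0 w a).contDiff.comp (contDiff_id.sub contDiff_const))

lemma hasFDerivAt_gz (hw : Ref T w ε κ) (y : E) :
    HasFDerivAt (gz T w a) (dgz T w a y) y := by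
  have h1 : HasFDerivAt (fun y => adj (dA w a (Xa T w a y)))
      (adj.comp ((D2 w (Xa T w a y)).comp (Ka T w a))) y := by
    have h2 : HasFDerivAt (fun x => dA w a x) (D2 w (Xa T w a y)) (Xa T w a y) := by
      unfold dA
      exact (hw.diff1 _).hasFDerivAt.sub_const _
    exact ((adj (E := E)).hasFDerivAt).comp y (h2.comp y (hasFDerivAt_Xa y))
  have h3 := h1.clm_apply (hasFDerivAt_eta (T := T) (w := w) (a := a) y)
  refine h3.congr_fderiv ?_
  ext v
  simp only [dgz, _root_.add_apply, ContinuousLinearMap.comp_apply, ContinuousLinearMap.flip_apply,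
    Hw_apply]
  abel

lemma contDiff_Zf (hw : Ref T w ε κ) (hf : Tst T a R f) : ContDiff ℝ 1 (Zf T w a f) := by
  unfold Zf gz
  have h1 : ContDiff ℝ 1 (fun y => adj (dA w a (Xa T w a y))) := by
    refine (adj (E := E)).contDiff.comp ?_
    unfold dA
    exact ((hw.smooth1.of_le (WithTop.coe_le_coe.2 le_top)).comp (contDiff_Xa (n := 1))).sub
      contDiff_const
  exact (((hf.smooth.of_le (by norm_num)).comp (contDiff_Xa (n := 1)))).smul
    ((PS T w a).contDiff.comp (h1.clm_apply (contDiff_eta (n := 1))))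

lemma fderiv_Zf (hw : Ref T w ε κ) (hf : Tst T a R f) (y : E) :
    fderiv ℝ (Zf T w a f) y = LZ T w a f y := by
  have h1 : HasFDerivAt (fun y => f (Xa T w a y)) ((fderiv ℝ f (Xa T w a y)).comp (Ka T w a)) y :=
    (hf.diff _).hasFDerivAt.comp y (hasFDerivAt_Xa y)
  have h2 : HasFDerivAt (fun y => PS T w a (gz T w a y)) ((PS T w a).comp (dgz T w a y)) y :=
    (PS T w a).hasFDerivAt.comp y (hasFDerivAt_gz hw y)
  have h3 := h1.smul h2
  have h4 : fderiv ℝ (Zf T w a f) y = _ := h3.fderiv
  rw [h4, LZ]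
  ext v
  simp
  abel

lemma LZ_apply (y v : E) : LZ T w a f y v =
    fderiv ℝ f (Xa T w a y) (Ka T w a v) • PS T w a (gz T w a y) +
      f (Xa T w a y) • PS T w a (dgz T w a y v) := by
  simp [LZ]

lemma dgz_apply (y v : E) : dgz T w a y v =
    Hw w (Xa T w a y) (eta T w a y) (Ka T w a v) +
      adj (dA w a (Xa T w a y)) (co T (J0 w a v)) := rfl

lemma PS_comp_LZ (y : E) : (PS T w a).comp (LZ T w a f y) = LZ T w a f y := by
  ext v
  rw [ContinuousLinearMap.comp_apply, LZ_apply, map_add, map_smul, map_smul, Ref.PS_self,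
    Ref.PS_self]

variable (hw : Ref T w ε κ) (hf : Tst T a R f)
include hw hf

lemma Tst.Xa_zero (ha : a ∈ T) {y : E} (hX : R < ‖Xa T w a y - a‖) :
    f (Xa T w a y) = 0 ∧ fderiv ℝ f (Xa T w a y) = 0 := by
  have h1 := star_Xa (T := T) (w := w) ha y
  exact ⟨hf.supp _ (by rw [h1]; exact hX.le), hf.fderiv_eq_zero (by rw [h1]; exact hX)⟩

lemma norm_gz_le (ha : a ∈ T) (y : E) :
    ‖gz T w a y‖ ≤ κ * ‖Xa T w a y - a‖ * ‖eta T w a y‖ := by
  have h := norm_adj_dA_apply_le (a := a) hw (Xa T w a y) (eta T w a y)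
  rw [map_sub T.starProjection, star_Xa ha, Submodule.starProjection_eq_self_iff.2 ha] at h
  exact h

/-- the tangential block -/
lemma norm_LZ_PS_le (ha : a ∈ T) {y : E} (hX : ‖Xa T w a y - a‖ ≤ R) :
    ‖(LZ T w a f y).comp (PS T w a)‖ ≤ 2 * κ * ‖eta T w a y‖ := by
  have hk := hw.knn
  have hR := hf.pos
  refine ContinuousLinearMap.opNorm_le_bound _ (by positivity) fun v => ?_
  rw [ContinuousLinearMap.comp_apply, LZ_apply, dgz_apply, Ka_PS hw, co_J0_PS hw, map_zero,
    add_zero]
  have h1 : ‖fderiv ℝ f (Xa T w a y) (Ka T w a v) • PS T w a (gz T w a y)‖ ≤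
      κ * ‖eta T w a y‖ * ‖v‖ := by
    rw [norm_smul, Real.norm_eq_abs]
    calc |fderiv ℝ f (Xa T w a y) (Ka T w a v)| * ‖PS T w a (gz T w a y)‖
        ≤ (R⁻¹ * ‖v‖) * (κ * R * ‖eta T w a y‖) := by
          gcongr
          · exact (hf.abs_fderiv_le _ _).trans (by gcongr; exact norm_Ka_apply_le v)
          · refine (norm_star_le _ _).trans ((norm_gz_le hw hf ha y).trans ?_)
            gcongr
      _ = _ := by field_simp
  have h2 : ‖f (Xa T w a y) • PS T w a (Hw w (Xa T w a y) (eta T w a y) (Ka T w a v))‖ ≤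
      κ * ‖eta T w a y‖ * ‖v‖ := by
    rw [norm_smul, Real.norm_eq_abs]
    calc |f (Xa T w a y)| * ‖PS T w a (Hw w (Xa T w a y) (eta T w a y) (Ka T w a v))‖
        ≤ 1 * (κ * ‖eta T w a y‖ * ‖v‖) := by
          gcongr
          · exact hf.le _
          · refine (norm_star_le _ _).trans ((hw.norm_Hw_apply_le _ _ _).trans ?_)
            gcongr
            exact norm_Ka_apply_le v
      _ = _ := one_mul _
  calc _ ≤ κ * ‖eta T w a y‖ * ‖v‖ + κ * ‖eta T w a y‖ * ‖v‖ :=
      (norm_add_le _ _).trans (add_le_add h1 h2)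
    _ = _ := by ring

/-- the mixed block -/
lemma norm_LZ_co_le (ha : a ∈ T) {y : E} (hX : ‖Xa T w a y - a‖ ≤ R) :
    ‖(LZ T w a f y).comp (co (planeOf T w a))‖ ≤ κ * R := by
  have hk := hw.knn
  have hR := hf.pos
  refine ContinuousLinearMap.opNorm_le_bound _ (by positivity) fun v => ?_
  set c := co (planeOf T w a) v with hc
  have hcn : ‖c‖ ≤ ‖v‖ := norm_co_le _ v
  have hKc : Ka T w a c = 0 := by
    rw [hc, co_apply, map_sub]
    have := Ka_PS (a := a) hw v
    unfold PS at this
    rw [this, sub_self]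
  rw [ContinuousLinearMap.comp_apply, ← hc, LZ_apply, dgz_apply, hKc, map_zero, map_zero, zero_smul,
    zero_add, zero_add, norm_smul, Real.norm_eq_abs]
  calc |f (Xa T w a y)| * ‖PS T w a (adj (dA w a (Xa T w a y)) (co T (J0 w a c)))‖
      ≤ 1 * (κ * R * ‖v‖) := by
        gcongr
        · exact hf.le _
        · refine (norm_star_le _ _).trans ?_
          have h := norm_adj_dA_apply_le (a := a) hw (Xa T w a y) (co T (J0 w a c))
          rw [map_sub T.starProjection, star_Xa ha, Submodule.starProjection_eq_self_iff.2 ha] at h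
          refine h.trans ?_
          gcongr
          exact (norm_co_le T _).trans ((norm_J0_apply_le w a c).trans hcn)
    _ = _ := one_mul _

omit hf in
/-- the linear Laplacian of the reference at the tangent plane `a` -/
lemma norm_lap_le (ha : a ∈ T) {x : E} (hx : T.starProjection x = x)
    (hmin : lap w (PS T w x) x = 0) :
    ‖lap w (PS T w a) x‖ ≤ Module.finrank ℝ E * (4 * κ ^ 2 * ‖x - a‖) := by
  have hk := hw.knn
  have h1 : lap w (PS T w a) x = lap w (PS T w a) x - lap w (PS T w x) x := by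
    rw [hmin, sub_zero]
  rw [h1]
  unfold lap
  rw [← Finset.sum_sub_distrib]
  calc ‖∑ k, (fderiv ℝ (fderiv ℝ w) x (PS T w a (stdOrthonormalBasis ℝ E k))
        (stdOrthonormalBasis ℝ E k) - fderiv ℝ (fderiv ℝ w) x
        (PS T w x (stdOrthonormalBasis ℝ E k)) (stdOrthonormalBasis ℝ E k))‖
      ≤ ∑ _k : Fin (Module.finrank ℝ E), 4 * κ ^ 2 * ‖x - a‖ := by
        refine (norm_sum_le _ _).trans (Finset.sum_le_sum fun k _ => ?_)
        set e := stdOrthonormalBasis ℝ E k with he
        have hen : ‖e‖ = 1 := (stdOrthonormalBasis ℝ E).norm_eq_one k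
        have e1 : fderiv ℝ (fderiv ℝ w) x (PS T w a e) e - fderiv ℝ (fderiv ℝ w) x (PS T w x e) e =
            D2 w x (PS T w a e - PS T w x e) e := by
          rw [map_sub]; rfl
        rw [e1]
        refine (hw.norm_D2_apply_le _ _ _).trans ?_
        rw [hen, mul_one]
        have h2 : ‖PS T w a e - PS T w x e‖ ≤ 4 * κ * ‖x - a‖ := by
          have h3 := norm_PS_sub_le hw ha x
          rw [hx] at h3
          rw [norm_sub_rev]
          calc ‖PS T w x e - PS T w a e‖ = ‖(PS T w x - PS T w a) e‖ := rfl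
            _ ≤ ‖PS T w x - PS T w a‖ * ‖e‖ := ContinuousLinearMap.le_opNorm _ _
            _ ≤ (4 * κ * ‖x - a‖) * 1 := by rw [hen]; gcongr
            _ = _ := mul_one _
        calc κ * ‖PS T w a e - PS T w x e‖ ≤ κ * (4 * κ * ‖x - a‖) := by gcongr
          _ = _ := by ring
    _ = _ := by simp

/-- the trace over the tangent plane -/
lemma tr_LZ_PS (y : E) : tr ((LZ T w a f y).comp (PS T w a)) =
    Hf T w a f (Xa T w a y) (eta T w a y) +
      f (Xa T w a y) * ⟪lap w (PS T w a) (Xa T w a y), eta T w a y⟫ := by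
  set X := Xa T w a y with hX
  set e := eta T w a y with he
  set g := gz T w a y with hg
  -- split
  set M : E →L[ℝ] E := (Hw w X e).comp (Ka T w a) with hM
  have h1 : (LZ T w a f y).comp (PS T w a) =
      ((fderiv ℝ f X).comp (Ka T w a)).smulRight (PS T w a g) +
        f X • ((PS T w a).comp (M.comp (PS T w a))) := by
    ext v
    rw [ContinuousLinearMap.comp_apply, LZ_apply, dgz_apply, Ka_PS hw, co_J0_PS hw, map_zero,
      add_zero]
    simp only [_root_.add_apply, ContinuousLinearMap.smulRight_apply,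
      ContinuousLinearMap.comp_apply, _root_.smul_apply, hM, Ka_PS hw]
    rfl
  have h2 : tr ((PS T w a).comp (M.comp (PS T w a))) = tr (M.comp (PS T w a)) := by
    rw [tr_comp_comm, ContinuousLinearMap.comp_assoc]
    congr 2
    ext v
    exact Ref.PS_self _ _
  have h3 : tr (M.comp (PS T w a)) = ⟪lap w (PS T w a) X, e⟫ := by
    rw [tr_eq_sum (stdOrthonormalBasis ℝ E), lap, sum_inner]
    refine Finset.sum_congr rfl fun k _ => ?_
    set b := stdOrthonormalBasis ℝ E k with hb
    rw [ContinuousLinearMap.comp_apply, hM, ContinuousLinearMap.comp_apply, Ka_PS hw, Hw_apply,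
      inner_adj_right]
    congr 1
    -- `D²w (K b) b = D²w (PS b) b`
    have h4 : T.starProjection (PS T w a b) = Ka T w a b := by
      rw [hw.PS_eq, D0_apply, map_sub, map_add, hw.star_fderiv, hw.adj_fderiv_star, map_zero,
        star_self]
      simp [Ka_apply]
    show D2 w X (Ka T w a b) b = D2 w X (PS T w a b) b
    rw [← h4, hw.D2_star_left]
  rw [h1, tr_add, tr_smulRight, tr_smul, h2, h3]
  congr 1
  rw [ContinuousLinearMap.comp_apply, Ka_PS hw]
  rfl

/-- **the divergence of the field** -/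
lemma tr_LZ_sub_le (ha : a ∈ T) {y : E} {P : Submodule ℝ E}
    (hP : Module.finrank ℝ P = Module.finrank ℝ T)
    (hmin : ∀ x ∈ T, ‖x - a‖ ≤ R → lap w (PS T w x) x = 0) (hX : ‖Xa T w a y - a‖ ≤ R) :
    |tr ((LZ T w a f y).comp P.starProjection) - Hf T w a f (Xa T w a y) (eta T w a y)| ≤
      4 * Module.finrank ℝ E * (κ ^ 2 * R * ‖eta T w a y‖ +
        κ * ‖eta T w a y‖ * tilt (planeOf T w a) P.starProjection +
        κ * R * √(tilt (planeOf T w a) P.starProjection)) := by
  have hk := hw.knn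
  have hR := hf.pos
  set n : ℝ := (Module.finrank ℝ E : ℝ) with hn
  have hn0 : 0 ≤ n := by positivity
  set t := tilt (planeOf T w a) P.starProjection with ht
  have ht0 : 0 ≤ t := tilt_nonneg P _
  have hst := star_Xa (T := T) (w := w) ha y
  have e1 : tr ((LZ T w a f y).comp P.starProjection) =
      tr ((LZ T w a f y).comp (P.starProjection - (planeOf T w a).starProjection)) +
        tr ((LZ T w a f y).comp (PS T w a)) := by
    rw [← tr_add, ← ContinuousLinearMap.comp_add]
    congr 2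
    unfold PS
    abel
  have h1 := abs_tr_sub_le (S := planeOf T w a) (P := P) (L := LZ T w a f y)
    (by rw [hP, hw.finrank_planeOf]) (PS_comp_LZ (T := T) (w := w) (a := a) (f := f) y)
    (norm_LZ_PS_le hw hf ha hX) (norm_LZ_co_le hw hf ha hX)
  have h2 : |f (Xa T w a y) * ⟪lap w (PS T w a) (Xa T w a y), eta T w a y⟫| ≤
      n * (4 * κ ^ 2 * R) * ‖eta T w a y‖ := by
    rw [abs_mul]
    calc |f (Xa T w a y)| * |⟪lap w (PS T w a) (Xa T w a y), eta T w a y⟫|
        ≤ 1 * (‖lap w (PS T w a) (Xa T w a y)‖ * ‖eta T w a y‖) := by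
          gcongr
          · exact hf.le _
          · exact abs_real_inner_le_norm _ _
      _ ≤ 1 * ((n * (4 * κ ^ 2 * R)) * ‖eta T w a y‖) := by
          gcongr
          refine (norm_lap_le hw ha hst (hmin _ (Xa_mem ha y) hX)).trans ?_
          gcongr
      _ = _ := one_mul _
  rw [e1, tr_LZ_PS hw hf]
  have e2 : ∀ A B C : ℝ, A + (B + C) - B = A + C := fun A B C => by ring
  rw [e2]
  refine (abs_add_le _ _).trans ?_
  refine (add_le_add h1 h2).trans ?_
  have h3 : 0 ≤ n * (κ * R * √t) := by positivity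
  have e3 : 4 * n * (κ ^ 2 * R * ‖eta T w a y‖ + κ * ‖eta T w a y‖ * t + κ * R * √t) =
      (2 * n * (2 * κ * ‖eta T w a y‖ * t + κ * R * √t) + n * (4 * κ ^ 2 * R) * ‖eta T w a y‖) +
        2 * (n * (κ * R * √t)) := by ring
  rw [e3]
  linarith

end

end Vale.Agent.P214.LOC
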