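import Vale.Agent.P214.LOC.CmpD
import Vale.Agent.P214.Skel.Defs

/-!
# P214, block LOC-CMP, part E: the measure side
-/

open Set Filter Topology MeasureTheory Metric
open scoped RealInnerProductSpace ContDiff

set_option linter.all false

namespace Vale.Agent.P214.LOC

open Vale.Agent.P214.FV Vale.Agent.P214.FM

variable {E : Type*} [NormedAddCommGroup E] [InnerProductSpace ℝ E] [FiniteDimensional ℝ E]

/-- the projection of the base point of the tangent plane -/
noncomputable def za (T : Submodule ℝ E) (w : E → E) (a : E) : E := PS T w a (a + w a)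

/-- the error density -/
noncomputable def Er (T : Submodule ℝ E) (w : E → E) (h₁ : ℝ) (a : E) (κ R U : ℝ)
    (P : E → E →L[ℝ] E) (y : E) : ℝ :=
  κ * (R + U) * tilt (planeOf T w a) (P y) + κ * R * √(tilt (planeOf T w a) (P y)) +
    κ ^ 2 * (R ^ 2 + ‖co T (PsiInv T w h₁ y)‖ ^ 2)

section

variable {T : Submodule ℝ E} {w : E → E} {ε κ : ℝ} {a : E} {R U : ℝ} {f : E → ℝ} {h₁ : ℝ}

/-- the numerical assembly -/
lemma assemble {fY fX eS t G Hh L n E1 E2 E3 x2 x3 x4 : ℝ} (hn0 : 0 ≤ n) (b1 : 0 ≤ E1)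
    (b2 : 0 ≤ E2) (b3 : 0 ≤ E3)
    (h1 : |fY - fX - (-G + Hh)| ≤ 32 * E3) (a1 : |(fY - fX) * t / 2| ≤ E1)
    (a2 : |fY * (eS - t) / 2| ≤ n * (4 * E2 + 16 * x2)) (h4 : |L - Hh| ≤ 4 * n * (x3 + x4 + E2))
    (a3 : x3 ≤ 2 * E3) (a4 : x4 ≤ E1) (a5 : x2 ≤ E3) :
    |fY * (1 - eS / 2) - fX * (1 - t / 2) + G - L| ≤ 40 * (n + 1) * (E1 + E2 + E3) := by
  have key : fY * (1 - eS / 2) - fX * (1 - t / 2) + G - L =
      (fY - fX - (-G + Hh)) - (fY - fX) * t / 2 - fY * (eS - t) / 2 - (L - Hh) := by ring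
  rw [key]
  have c1 := mul_nonneg hn0 b1
  have c2 := mul_nonneg hn0 b2
  have c3 := mul_nonneg hn0 b3
  have d1 := mul_le_mul_of_nonneg_left a3 hn0
  have d2 := mul_le_mul_of_nonneg_left a4 hn0
  have d3 := mul_le_mul_of_nonneg_left a5 hn0
  have e1 := abs_sub ((fY - fX - (-G + Hh)) - (fY - fX) * t / 2 - fY * (eS - t) / 2) (L - Hh)
  have e2 := abs_sub ((fY - fX - (-G + Hh)) - (fY - fX) * t / 2) (fY * (eS - t) / 2)
  have e3 := abs_sub (fY - fX - (-G + Hh)) ((fY - fX) * t / 2)
  nlinarith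

/-- **Pointwise comparison.** -/
lemma pointwise (H : Adm T w ε κ h₁) (hf : Tst T a R f) (ha : a ∈ T)
    (hmin : ∀ x ∈ T, ‖x - a‖ ≤ R → lap w (PS T w x) x = 0) {Y : E} {P : Submodule ℝ E}
    (hP : Module.finrank ℝ P = Module.finrank ℝ T) (hU0 : 0 ≤ U) (hY : ‖co T Y‖ ≤ h₁)
    (hU : ‖T.starProjection Y - a‖ ≤ 6 / 5 * R → ‖co T Y‖ ≤ U)
    (hκ : κ * (‖T.starProjection Y - a‖ + ‖co T Y‖) ≤ 1 / 16) :
    |f Y * (1 - eS T w Y P.starProjection / 2) -
      f (Xa T w a (Psi T w h₁ Y)) * (1 - tilt (planeOf T w a) P.starProjection / 2) +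
      Gf T w a f (Xa T w a (Psi T w h₁ Y)) -
      tr ((LZ T w a f (Psi T w h₁ Y)).comp P.starProjection)| ≤
      (40 * (Module.finrank ℝ E + 1)) * ({y | ‖PS T w a y - za T w a‖ < 2 * R}.indicator
        (fun _ => κ * (R + U) * tilt (planeOf T w a) P.starProjection +
          κ * R * √(tilt (planeOf T w a) P.starProjection) +
          κ ^ 2 * (R ^ 2 + ‖co T Y‖ ^ 2)) (Psi T w h₁ Y)) := by
  have hw := H.ref
  have hk := hw.knn
  have hR := hf.pos
  have h0 := H.hpos
  have hε : ε ≤ 1 / 16 := H.hε.trans eps0_le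
  set n : ℝ := (Module.finrank ℝ E : ℝ) with hn
  have hn0 : 0 ≤ n := by positivity
  set t := tilt (planeOf T w a) P.starProjection with ht
  have ht0 : 0 ≤ t := tilt_nonneg P _
  set X := Xa T w a (Psi T w h₁ Y) with hX
  set e := eta T w a (Psi T w h₁ Y) with he
  set r := ‖T.starProjection Y - a‖ with hr
  set u := ‖co T Y‖ with hu
  have hu0 : 0 ≤ u := norm_nonneg _
  have hr0 : 0 ≤ r := norm_nonneg _
  rcases le_or_gt r (6 / 5 * R) with hc | hc
  · -- the near case
    have hU : u ≤ U := hU hc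
    have hD := near_cyl hw hε hR ha h0 hY hκ hc
    rw [indicator_of_mem (by exact hD)]
    have h1 := expansion hw hf ha h0 hY hκ hc
    rw [← hX, ← he] at h1
    have hdX := norm_Xa_sub_le hw ha h0 hY
    have hde := norm_eta_sub_le hw ha h0 hY
    rw [← hX] at hdX
    rw [← he] at hde
    have hd : κ * r * (r + u) ≤ r / 16 := by
      calc κ * r * (r + u) = r * (κ * (r + u)) := by ring
        _ ≤ r * (1 / 16) := by gcongr
        _ = _ := by ring
    have heu : ‖e‖ ≤ u + R := by
      calc ‖e‖ = ‖(e - co T Y) + co T Y‖ := by congr 1; abel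
        _ ≤ r / 16 + u := (norm_add_le _ _).trans (by gcongr; exact hde.trans hd)
        _ ≤ u + R := by linarith
    -- first: `f Y - f X` against the tilt
    have h2 : |f Y - f X| * t ≤ 2 * (κ * (R + U) * t) := by
      have h3 : |f Y - f X| ≤ 2 * (κ * (R + U)) := by
        have h4 := hf.abs_sub_le (T.starProjection Y) X
        rw [hf.base] at h4
        have h5 : ‖T.starProjection Y - X‖ ≤ κ * r * (r + u) := by
          rw [norm_sub_rev]; exact hdX
        have h6 : R⁻¹ * r ≤ 6 / 5 := by rw [inv_mul_le_iff₀ hR]; linarith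
        calc |f Y - f X| ≤ R⁻¹ * ‖T.starProjection Y - X‖ := h4
          _ ≤ R⁻¹ * (κ * r * (r + u)) := by gcongr
          _ = (R⁻¹ * r) * (κ * (r + u)) := by ring
          _ ≤ 6 / 5 * (κ * (6 / 5 * R + U)) := by gcongr
          _ ≤ 2 * (κ * (R + U)) := by
            have h7 : 0 ≤ κ * R := by positivity
            have h8 : 0 ≤ κ * U := by positivity
            nlinarith
      calc |f Y - f X| * t ≤ (2 * (κ * (R + U))) * t := by gcongr
        _ = _ := by ring
    -- second: the change of the tilt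
    have h3 : |f Y| * |eS T w Y P.starProjection - t| ≤
        2 * n * (4 * (κ * R * √t) + 16 * (κ ^ 2 * R ^ 2)) := by
      by_cases hrR : R ≤ r
      · rw [hf.supp Y hrR, abs_zero, zero_mul]
        positivity
      · rw [not_le] at hrR
        have h4 := norm_PS_sub_le hw ha Y
        have h5 := tilt_diff_le (S := planeOf T w a) (T := planeOf T w Y) (P := P)
          (by rw [hP, hw.finrank_planeOf]) (by rw [hw.finrank_planeOf, hw.finrank_planeOf])
          (κ := 4 * κ * R) (h4.trans (by gcongr))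
        have h6 : |f Y| ≤ 1 := hf.le Y
        calc |f Y| * |eS T w Y P.starProjection - t|
            ≤ 1 * (2 * n * (4 * κ * R * √t + (4 * κ * R) ^ 2)) := by
              gcongr
              exact h5
          _ = _ := by ring
    -- third: the divergence of the field
    have h4 : |tr ((LZ T w a f (Psi T w h₁ Y)).comp P.starProjection) - Hf T w a f X e| ≤
        4 * n * (κ ^ 2 * R * (u + R) + κ * (u + R) * t + κ * R * √t) := by
      by_cases hXR : ‖X - a‖ ≤ R
      · have h5 := tr_LZ_sub_le hw hf ha hP hmin hXR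
        rw [← hX, ← he] at h5
        refine h5.trans ?_
        gcongr
      · rw [not_le] at hXR
        obtain ⟨h6, h7⟩ := Tst.Xa_zero hw hf ha hXR
        have h8 : LZ T w a f (Psi T w h₁ Y) = 0 := by
          ext v
          rw [LZ_apply, h6, h7]
          simp
        have h9 : Hf T w a f X e = 0 := by
          unfold Hf; rw [h7]; simp
        rw [h8, h9, ContinuousLinearMap.zero_comp, tr_zero, sub_zero, abs_zero]
        positivity
    -- assemble
    have a1 : |(f Y - f X) * t / 2| ≤ κ * (R + U) * t := by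
      rw [abs_div, abs_mul, abs_of_nonneg ht0, abs_of_pos (by norm_num : (0:ℝ) < 2)]
      linarith
    have a2 : |f Y * (eS T w Y P.starProjection - t) / 2| ≤
        n * (4 * (κ * R * √t) + 16 * (κ ^ 2 * R ^ 2)) := by
      rw [abs_div, abs_mul, abs_of_pos (by norm_num : (0:ℝ) < 2)]
      linarith
    have a3 : κ ^ 2 * R * (u + R) ≤ 2 * (κ ^ 2 * (R ^ 2 + u ^ 2)) := by
      have : R * (u + R) ≤ 2 * (R ^ 2 + u ^ 2) := by nlinarith [sq_nonneg (R - u)]
      calc κ ^ 2 * R * (u + R) = κ ^ 2 * (R * (u + R)) := by ring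
        _ ≤ κ ^ 2 * (2 * (R ^ 2 + u ^ 2)) := by gcongr
        _ = _ := by ring
    have a4 : κ * (u + R) * t ≤ κ * (R + U) * t := by
      have : u + R ≤ R + U := by linarith
      gcongr
    have a5 : κ ^ 2 * R ^ 2 ≤ κ ^ 2 * (R ^ 2 + u ^ 2) := by
      have : R ^ 2 ≤ R ^ 2 + u ^ 2 := by linarith [sq_nonneg u]
      gcongr
    have a6 : 32 * κ ^ 2 * (R ^ 2 + u ^ 2) = 32 * (κ ^ 2 * (R ^ 2 + u ^ 2)) := by ring
    rw [a6] at h1
    exact assemble hn0 (by positivity) (by positivity) (by positivity) h1 a1 a2 h4 a3 a4 a5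
  · -- the far case
    obtain ⟨h1, h2⟩ := far_zero hw hf ha h0 hY hκ hc
    rw [← hX] at h2
    obtain ⟨h6, h7⟩ := Tst.Xa_zero hw hf ha h2
    have h8 : LZ T w a f (Psi T w h₁ Y) = 0 := by
      ext v
      rw [LZ_apply, h6, h7]
      simp
    have h9 : Gf T w a f X = 0 := by
      unfold Gf; rw [h7]; simp
    rw [h1, h6, h8, h9, ContinuousLinearMap.zero_comp, tr_zero]
    simp only [zero_mul, sub_zero, add_zero, abs_zero]
    refine mul_nonneg (by positivity) (indicator_nonneg (fun _ _ => ?_) _)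
    positivity

end

section

variable [MeasurableSpace E] [BorelSpace E]
variable {m : ℕ} {T : Submodule ℝ E} {w : E → E} {ε κ : ℝ} {a : E} {R U : ℝ} {f : E → ℝ} {h₁ h : ℝ}
  {G : Set E} {ν : Measure E} {P : E → E →L[ℝ] E}

/-- measurability of the tilt against a continuous family of planes -/
lemma aesm_tr_comp {B : E → E →L[ℝ] E} (hB : Continuous B) (hP : AEStronglyMeasurable P ν) :
    AEStronglyMeasurable (fun y => tr ((B y).comp (P y))) ν := by
  refine continuous_tr.comp_aestronglyMeasurable ?_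
  have : Continuous fun p : (E →L[ℝ] E) × (E →L[ℝ] E) => p.1.comp p.2 := by fun_prop
  exact this.comp_aestronglyMeasurable (hB.aestronglyMeasurable.prodMk hP)

lemma integrable_of_bdd [IsFiniteMeasure ν] {g : E → ℝ} (hg : AEStronglyMeasurable g ν) {C : ℝ}
    (hC : ∀ᵐ y ∂ν, |g y| ≤ C) : Integrable g ν :=
  (integrable_const C).mono' hg (by
    filter_upwards [hC] with y hy; rwa [Real.norm_eq_abs])

/-- the first variation of the field vanishes -/
lemma integral_LZ_zero (H : Adm T w ε κ h₁) (hf : Tst T a R f) (ha : a ∈ T)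
    (hC : CylStat m (planeOf T w a) G h ν P) (hG : closedBall (za T w a) (2 * R) ⊆ G) :
    ∫ y, tr ((LZ T w a f y).comp (P y)) ∂ν = 0 := by
  have hw := H.ref
  have hR := hf.pos
  have hε : ε ≤ 1 / 16 := H.hε.trans eps0_le
  have h1 := hC.stat (Zf T w a f) (contDiff_Zf hw hf) ⟨closedBall (za T w a) (2 * R),
    isCompact_closedBall _ _, hG, fun y hy => by
      unfold Zf
      have h2 : 2 * R < ‖PS T w a (y - (a + w a))‖ := by
        rw [mem_closedBall, dist_eq_norm, not_le] at hy
        rw [map_sub]; exact hy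
      rw [PS_sub_eq hw] at h2
      have h3 := hw.norm_D0_apply_le hε a (Xa T w a y - a)
      have h4 : R < ‖Xa T w a y - a‖ := by linarith
      rw [(Tst.Xa_zero hw hf ha h4).1, zero_smul]⟩
  simp only [fderiv_Zf hw hf] at h1
  exact h1

lemma continuous_LZ (H : Adm T w ε κ h₁) (hf : Tst T a R f) : Continuous (LZ T w a f) := by
  have h1 : LZ T w a f = fderiv ℝ (Zf T w a f) := funext fun y => (fderiv_Zf H.ref hf y).symm
  rw [h1]
  exact (contDiff_Zf H.ref hf).continuous_fderiv (by norm_num)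

lemma continuous_Gf (H : Adm T w ε κ h₁) (hf : Tst T a R f) : Continuous (Gf T w a f) := by
  unfold Gf
  have h1 : Continuous (wr w a) := by
    unfold wr
    have := H.ref.smooth.continuous
    fun_prop
  exact hf.smooth1.clm_apply ((Ka T w a).continuous.comp h1)

lemma abs_Gf_le (H : Adm T w ε κ h₁) (hf : Tst T a R f) (ha : a ∈ T) {x : E}
    (hx : T.starProjection x = x) : |Gf T w a f x| ≤ κ * R := by
  have hk := H.ref.knn
  have hR := hf.pos
  rcases le_or_gt ‖x - a‖ R with h | h
  · have h1 := norm_wr_le H.ref ha x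
    rw [hx] at h1
    calc |Gf T w a f x| ≤ R⁻¹ * ‖Ka T w a (wr w a x)‖ := hf.abs_fderiv_le _ _
      _ ≤ R⁻¹ * (κ * R * R) := by
          gcongr
          exact (norm_Ka_apply_le _).trans (h1.trans (by gcongr))
      _ = κ * R := by field_simp
  · unfold Gf
    rw [hf.fderiv_eq_zero (by rw [hx]; exact h)]
    simp
    positivity

/-- **The measure side.** -/
theorem measure_side (H : Adm T w ε κ h₁) (hf : Tst T a R f) (ha : a ∈ T)
    (hC : CylStat m (planeOf T w a) G h ν P) (hG : closedBall (za T w a) (2 * R) ⊆ G)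
    (hmin : ∀ x ∈ T, ‖x - a‖ ≤ R → lap w (PS T w x) x = 0) (hU0 : 0 ≤ U)
    (hh : ∀ᵐ y ∂ν, ‖co T (PsiInv T w h₁ y)‖ ≤ h₁)
    (hU : ∀ᵐ y ∂ν, ‖T.starProjection (PsiInv T w h₁ y) - a‖ ≤ 6 / 5 * R →
      ‖co T (PsiInv T w h₁ y)‖ ≤ U)
    (hκ : ∀ᵐ y ∂ν, κ * (‖T.starProjection (PsiInv T w h₁ y) - a‖ +
      ‖co T (PsiInv T w h₁ y)‖) ≤ 1 / 16) :
    |(∫ Y, f (T.starProjection Y) * (1 - eS T w Y (fP T w h₁ P Y) / 2) ∂(fmeas T w h₁ ν)) -
      (∫ y, f (Xa T w a y) * (1 - tilt (planeOf T w a) (P y) / 2) ∂ν) +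
      ∫ y, Gf T w a f (Xa T w a y) ∂ν| ≤
      (40 * (Module.finrank ℝ E + 1)) *
        ∫ y in Skel.cylSet (planeOf T w a) (za T w a) (2 * R), Er T w h₁ a κ R U P y ∂ν := by
  have hw := H.ref
  have hk := hw.knn
  have hR := hf.pos
  haveI := hC.fin
  have hdimT : Module.finrank ℝ T = m := by rw [← hw.finrank_planeOf a, hC.dimT]
  set n : ℝ := (Module.finrank ℝ E : ℝ) with hn
  have hn0 : 0 ≤ n := by positivity
  set S := planeOf T w a with hS
  -- rewriting the Fermi integral
  have hF : ∫ Y, f (T.starProjection Y) * (1 - eS T w Y (fP T w h₁ P Y) / 2) ∂(fmeas T w h₁ ν) =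
      ∫ y, f (PsiInv T w h₁ y) * (1 - eS T w (PsiInv T w h₁ y) (P y) / 2) ∂ν := by
    rw [← H.integral_fmeas ν]
    refine integral_congr_ae (Eventually.of_forall fun Y => ?_)
    simp only [H.PsiInv_Psi, hf.base, fP]
  rw [hF]
  -- a.e. data
  have hproj : ∀ᵐ y ∂ν, ∃ Q : Submodule ℝ E, Module.finrank ℝ Q = m ∧ P y = Q.starProjection :=
    hC.proj
  -- measurability
  have mP := hC.meas
  have cPI : Continuous (PsiInv T w h₁) := H.contDiff_PsiInv.continuous
  have cXa : Continuous (Xa T w a) := (contDiff_Xa (n := 0)).continuous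
  have mtr : AEStronglyMeasurable (fun y => tr (P y)) ν := continuous_tr.comp_aestronglyMeasurable mP
  have mt : AEStronglyMeasurable (fun y => tilt S (P y)) ν := by
    have : (fun y => tilt S (P y)) = fun y => tr ((co S).comp (P y)) := rfl
    rw [this]
    exact aesm_tr_comp (B := fun _ => co S) continuous_const mP
  have mS : AEStronglyMeasurable (fun y => eS T w (PsiInv T w h₁ y) (P y)) ν := by
    have : (fun y => eS T w (PsiInv T w h₁ y) (P y)) =
        fun y => tr (P y) - tr ((PS T w (PsiInv T w h₁ y)).comp (P y)) := by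
      funext y
      exact tilt_eq _ _
    rw [this]
    exact mtr.sub (aesm_tr_comp (B := fun y => PS T w (PsiInv T w h₁ y))
      (hw.contDiff_PS.continuous.comp cPI) mP)
  have mA : AEStronglyMeasurable (fun y => f (PsiInv T w h₁ y) *
      (1 - eS T w (PsiInv T w h₁ y) (P y) / 2)) ν := by
    refine ((hf.smooth.continuous.comp cPI).aestronglyMeasurable).mul ?_
    exact aestronglyMeasurable_const.sub (mS.mul_const (1/2) |>.congr
      (Eventually.of_forall fun y => by simp [div_eq_mul_inv]))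
  have mB : AEStronglyMeasurable (fun y => f (Xa T w a y) * (1 - tilt S (P y) / 2)) ν := by
    refine ((hf.smooth.continuous.comp cXa).aestronglyMeasurable).mul ?_
    exact aestronglyMeasurable_const.sub (mt.mul_const (1/2) |>.congr
      (Eventually.of_forall fun y => by simp [div_eq_mul_inv]))
  have mG : AEStronglyMeasurable (fun y => Gf T w a f (Xa T w a y)) ν :=
    ((continuous_Gf H hf).comp cXa).aestronglyMeasurable
  have mL : AEStronglyMeasurable (fun y => tr ((LZ T w a f y).comp (P y))) ν :=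
    aesm_tr_comp (continuous_LZ H hf) mP
  -- bounds
  have bt : ∀ᵐ y ∂ν, 0 ≤ tilt S (P y) ∧ tilt S (P y) ≤ n := by
    filter_upwards [hproj] with y hy
    obtain ⟨Q, hQ, hPy⟩ := hy
    rw [hPy]
    refine ⟨tilt_nonneg Q S, (tilt_le Q S).trans ?_⟩
    rw [hn]
    exact_mod_cast Submodule.finrank_le Q
  have bS : ∀ᵐ y ∂ν, 0 ≤ eS T w (PsiInv T w h₁ y) (P y) ∧
      eS T w (PsiInv T w h₁ y) (P y) ≤ n := by
    filter_upwards [hproj] with y hy
    obtain ⟨Q, hQ, hPy⟩ := hy
    rw [hPy]
    refine ⟨tilt_nonneg Q _, (tilt_le Q _).trans ?_⟩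
    rw [hn]
    exact_mod_cast Submodule.finrank_le Q
  have iA : Integrable (fun y => f (PsiInv T w h₁ y) *
      (1 - eS T w (PsiInv T w h₁ y) (P y) / 2)) ν := by
    refine integrable_of_bdd mA (C := 1 * (1 + n)) ?_
    filter_upwards [bS] with y hy
    rw [abs_mul]
    gcongr
    · exact hf.le _
    · rw [abs_le]; constructor <;> linarith [hy.1, hy.2]
  have iB : Integrable (fun y => f (Xa T w a y) * (1 - tilt S (P y) / 2)) ν := by
    refine integrable_of_bdd mB (C := 1 * (1 + n)) ?_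
    filter_upwards [bt] with y hy
    rw [abs_mul]
    gcongr
    · exact hf.le _
    · rw [abs_le]; constructor <;> linarith [hy.1, hy.2]
  have iG : Integrable (fun y => Gf T w a f (Xa T w a y)) ν :=
    integrable_of_bdd mG (C := κ * R) (Eventually.of_forall fun y =>
      abs_Gf_le H hf ha (star_Xa ha y))
  -- the error density
  set D : Set E := Skel.cylSet S (za T w a) (2 * R) with hD
  have hDm : MeasurableSet D := (isOpen_ball.preimage S.starProjection.continuous).measurableSet
  have mE : AEStronglyMeasurable (Er T w h₁ a κ R U P) ν := by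
    unfold Er
    refine ((mt.const_mul _).add ((Real.continuous_sqrt.comp_aestronglyMeasurable mt).const_mul _)).add
      (Continuous.aestronglyMeasurable ?_)
    have : Continuous fun y => ‖co T (PsiInv T w h₁ y)‖ := ((co T).continuous.comp cPI).norm
    fun_prop
  have nE : ∀ᵐ y ∂ν, 0 ≤ Er T w h₁ a κ R U P y ∧ Er T w h₁ a κ R U P y ≤
      κ * (R + U) * n + κ * R * √n + κ ^ 2 * (R ^ 2 + h₁ ^ 2) := by
    filter_upwards [bt, hh] with y hy hyU
    have h1 := hy.1
    unfold Er
    constructor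
    · positivity
    · gcongr
      · exact hy.2
      · exact hy.2
  have iE : Integrable (Er T w h₁ a κ R U P) ν := by
    refine integrable_of_bdd mE ?_ (C := κ * (R + U) * n + κ * R * √n + κ ^ 2 * (R ^ 2 + h₁ ^ 2))
    filter_upwards [nE] with y hy
    rw [abs_of_nonneg hy.1]; exact hy.2
  -- the pointwise bound
  have hpt : ∀ᵐ y ∂ν, |f (PsiInv T w h₁ y) * (1 - eS T w (PsiInv T w h₁ y) (P y) / 2) -
      f (Xa T w a y) * (1 - tilt S (P y) / 2) + Gf T w a f (Xa T w a y) -
      tr ((LZ T w a f y).comp (P y))| ≤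
      (40 * (n + 1)) * D.indicator (Er T w h₁ a κ R U P) y := by
    filter_upwards [hproj, hU, hκ, hh] with y hy hyU hyκ hyh
    obtain ⟨Q, hQ, hPy⟩ := hy
    have h1 := pointwise (P := Q) H hf ha hmin (Y := PsiInv T w h₁ y) (by rw [hQ, hdimT]) hU0
      hyh hyU hyκ
    rw [H.Psi_PsiInv, ← hPy] at h1
    refine h1.trans (le_of_eq ?_)
    congr 1
    by_cases hyD : y ∈ D
    · have h2 : y ∈ {y | ‖PS T w a y - za T w a‖ < 2 * R} := by
        rw [hD, Skel.cylSet, mem_setOf_eq, mem_ball, dist_eq_norm] at hyD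
        exact hyD
      rw [indicator_of_mem h2, indicator_of_mem hyD]
      rfl
    · have h2 : y ∉ {y | ‖PS T w a y - za T w a‖ < 2 * R} := by
        rw [hD, Skel.cylSet, mem_setOf_eq, mem_ball, dist_eq_norm] at hyD
        exact hyD
      rw [indicator_of_notMem h2, indicator_of_notMem hyD]
  have iD : Integrable (D.indicator (Er T w h₁ a κ R U P)) ν := iE.indicator hDm
  have iL : Integrable (fun y => tr ((LZ T w a f y).comp (P y))) ν := by
    have h1 : Integrable (fun y => |f (PsiInv T w h₁ y) *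
        (1 - eS T w (PsiInv T w h₁ y) (P y) / 2)| + |f (Xa T w a y) * (1 - tilt S (P y) / 2)| +
        |Gf T w a f (Xa T w a y)| + (40 * (n + 1)) * D.indicator (Er T w h₁ a κ R U P) y) ν :=
      ((iA.abs.add iB.abs).add iG.abs).add (iD.const_mul _)
    refine h1.mono' mL ?_
    filter_upwards [hpt] with y hy
    rw [Real.norm_eq_abs]
    set A := f (PsiInv T w h₁ y) * (1 - eS T w (PsiInv T w h₁ y) (P y) / 2)
    set B := f (Xa T w a y) * (1 - tilt S (P y) / 2)
    set C := Gf T w a f (Xa T w a y)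
    set L := tr ((LZ T w a f y).comp (P y))
    have h2 : L = A - B + C - (A - B + C - L) := by ring
    calc |L| = |A - B + C - (A - B + C - L)| := by rw [← h2]
      _ ≤ |A - B + C| + |A - B + C - L| := abs_sub _ _
      _ ≤ (|A| + |B| + |C|) + |A - B + C - L| := by
          gcongr
          exact (abs_add_le _ _).trans (by gcongr; exact abs_sub _ _)
      _ ≤ _ := by gcongr
  have hL0 := integral_LZ_zero H hf ha hC hG
  set fA : E → ℝ := fun y => f (PsiInv T w h₁ y) * (1 - eS T w (PsiInv T w h₁ y) (P y) / 2) with hfA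
  set fB : E → ℝ := fun y => f (Xa T w a y) * (1 - tilt S (P y) / 2) with hfB
  set fG : E → ℝ := fun y => Gf T w a f (Xa T w a y) with hfG
  set fL : E → ℝ := fun y => tr ((LZ T w a f y).comp (P y)) with hfL
  have i1 : Integrable (fun y => fA y - fB y) ν := iA.sub iB
  have i2 : Integrable (fun y => fA y - fB y + fG y) ν := i1.add iG
  have i3 : Integrable (fun y => fA y - fB y + fG y - fL y) ν := i2.sub iL
  have h1 : (∫ y, fA y ∂ν) - (∫ y, fB y ∂ν) + ∫ y, fG y ∂ν =
      ∫ y, (fA y - fB y + fG y - fL y) ∂ν := by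
    rw [integral_sub i2 iL, hL0, sub_zero, integral_add i1 iG, integral_sub iA iB]
  rw [h1]
  refine (abs_integral_le_integral_abs).trans ?_
  rw [← integral_indicator hDm, ← integral_const_mul]
  exact integral_mono_ae i3.abs (iD.const_mul _) hpt

end

end Vale.Agent.P214.LOC
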