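import Vale.Agent.P214.LOC.CmpC
import Vale.Agent.P214.CST.Jac
import Vale.Agent.P214.CST.Blow
import Vale.Agent.P214.INT.CutPlane

/-!
# P214, block LOC-CMP, part F: the area element
-/

open Set Filter Topology MeasureTheory Metric
open scoped RealInnerProductSpace ContDiff

set_option linter.all false

namespace Vale.Agent.P214.LOC

open Vale.Agent.P214.FV Vale.Agent.P214.FM

variable {E : Type*} [NormedAddCommGroup E] [InnerProductSpace ℝ E] [FiniteDimensional ℝ E]

/-! ### the determinant near the identity -/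

/-- second order Taylor bound on the unit ball -/
lemma quad_bound {V : Type*} [NormedAddCommGroup V] [NormedSpace ℝ V] [FiniteDimensional ℝ V]
    {F : V → ℝ} (hF : ContDiff ℝ 2 F) :
    ∃ C : ℝ, 0 ≤ C ∧ ∀ N : V, ‖N‖ ≤ 1 → |F N - F 0 - fderiv ℝ F 0 N| ≤ C * ‖N‖ ^ 2 := by
  have h1 : ContDiff ℝ 1 (fderiv ℝ F) := hF.fderiv_right (by norm_num)
  have h2 : Continuous (fun z => ‖fderiv ℝ (fderiv ℝ F) z‖) :=
    continuous_norm.comp (h1.continuous_fderiv (by norm_num))
  obtain ⟨C, hC'⟩ := (isCompact_closedBall (0 : V) 1).exists_bound_of_continuousOn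
    h2.continuousOn
  have hC : ∀ x ∈ closedBall (0 : V) 1, ‖fderiv ℝ (fderiv ℝ F) x‖ ≤ C := fun x hx =>
    (le_abs_self _).trans (hC' x hx)
  refine ⟨max C 0, le_max_right _ _, fun N hN => ?_⟩
  have hd : Differentiable ℝ F := hF.differentiable (by norm_num)
  have hd1 : Differentiable ℝ (fderiv ℝ F) := h1.differentiable (by norm_num)
  have k1 : ∀ z ∈ closedBall (0 : V) ‖N‖, ‖fderiv ℝ F z - fderiv ℝ F 0‖ ≤ max C 0 * ‖N‖ := by
    intro z hz
    rw [mem_closedBall, dist_zero_right] at hz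
    have h3 := (convex_closedBall (0 : V) 1).norm_image_sub_le_of_norm_hasFDerivWithin_le
      (f := fderiv ℝ F) (f' := fderiv ℝ (fderiv ℝ F)) (C := max C 0)
      (fun z _ => (hd1 z).hasFDerivAt.hasFDerivWithinAt)
      (fun z hz => (hC z hz).trans (le_max_left _ _))
      (mem_closedBall_self (zero_le_one)) (x := 0) (y := z)
      (by rw [mem_closedBall, dist_zero_right]; linarith)
    rw [sub_zero] at h3
    exact h3.trans (by gcongr)
  have k2 := (convex_closedBall (0 : V) ‖N‖).norm_image_sub_le_of_norm_hasFDerivWithin_le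
    (f := fun z => F z - fderiv ℝ F 0 z) (f' := fun z => fderiv ℝ F z - fderiv ℝ F 0)
    (C := max C 0 * ‖N‖)
    (fun z _ => ((hd z).hasFDerivAt.sub (fderiv ℝ F 0).hasFDerivAt).hasFDerivWithinAt) k1
    (mem_closedBall_self (norm_nonneg _)) (x := 0) (y := N)
    (by rw [mem_closedBall, dist_zero_right])
  rw [Real.norm_eq_abs, sub_zero, map_zero, sub_zero] at k2
  calc |F N - F 0 - fderiv ℝ F 0 N| = |F N - fderiv ℝ F 0 N - F 0| := by congr 1; ring
    _ ≤ max C 0 * ‖N‖ * ‖N‖ := k2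
    _ = _ := by ring

/-- the determinant of `1 + N` -/
noncomputable def dd (N : E →L[ℝ] E) : ℝ :=
  LinearMap.det ((ContinuousLinearMap.id ℝ E + N : E →L[ℝ] E) : E →ₗ[ℝ] E)

lemma dd_eq (N : E →L[ℝ] E) : dd N = (Matrix.of fun i j =>
    ⟪stdOrthonormalBasis ℝ E i, (stdOrthonormalBasis ℝ E j) + N (stdOrthonormalBasis ℝ E j)⟫).det := by
  unfold dd
  rw [← LinearMap.det_toMatrix (stdOrthonormalBasis ℝ E).toBasis]
  congr 1
  ext i j
  rw [LinearMap.toMatrix_apply]
  simp [OrthonormalBasis.repr_apply_apply]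
  rw [inner_add_right, orthonormal_iff_ite.1 (stdOrthonormalBasis ℝ E).orthonormal i j]

lemma contDiff_dd : ContDiff ℝ 2 (dd : (E →L[ℝ] E) → ℝ) := by
  have h1 : (dd : (E →L[ℝ] E) → ℝ) = fun N => (Matrix.of fun i j =>
    ⟪stdOrthonormalBasis ℝ E i, (stdOrthonormalBasis ℝ E j) +
      N (stdOrthonormalBasis ℝ E j)⟫).det := funext dd_eq
  rw [h1]
  refine ((CST.contDiff_det _).of_le (WithTop.coe_le_coe.2 le_top)).comp ?_
  refine contDiff_pi.2 fun i => contDiff_pi.2 fun j => ?_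
  refine contDiff_const.inner ℝ (contDiff_const.add ?_)
  exact (ContinuousLinearMap.apply ℝ E (stdOrthonormalBasis ℝ E j)).contDiff

lemma dd_zero : dd (0 : E →L[ℝ] E) = 1 := by
  unfold dd
  rw [add_zero]
  exact LinearMap.det_id

lemma fderiv_dd (N : E →L[ℝ] E) : fderiv ℝ dd (0 : E →L[ℝ] E) N = tr N := by
  set b := stdOrthonormalBasis ℝ E with hb
  have h1 : HasDerivAt (fun t : ℝ => dd (t • N)) (fderiv ℝ dd (0 : E →L[ℝ] E) N) 0 := by
    have h2 : HasFDerivAt (dd : (E →L[ℝ] E) → ℝ) (fderiv ℝ dd 0) ((0:ℝ) • N) := by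
      rw [zero_smul]
      exact (contDiff_dd.differentiable (by norm_num) _).hasFDerivAt
    have h3 : HasDerivAt (fun t : ℝ => t • N) N 0 := by
      simpa using (hasDerivAt_id (0:ℝ)).smul_const N
    exact h2.comp_hasDerivAt 0 h3
  have h2 : HasDerivAt (fun t : ℝ => dd (t • N)) (tr N) 0 := by
    set M : ℝ → Matrix (Fin (Module.finrank ℝ E)) (Fin (Module.finrank ℝ E)) ℝ := fun t =>
      Matrix.of fun i j => ⟪b i, b j + (t • N) (b j)⟫ with hM
    set M' : Matrix (Fin (Module.finrank ℝ E)) (Fin (Module.finrank ℝ E)) ℝ :=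
      Matrix.of fun i j => ⟪b i, N (b j)⟫ with hM'
    have h3 : (fun t : ℝ => dd (t • N)) = fun t => (M t).det := funext fun t => dd_eq _
    have h4 : M 0 = 1 := by
      ext i j
      simp only [hM, Matrix.of_apply, zero_smul, _root_.zero_apply, add_zero]
      rw [Matrix.one_apply]
      exact orthonormal_iff_ite.1 b.orthonormal i j
    have h5 := CST.hasDerivAt_det (M := M) (M' := M') (t := 0) (fun i j => by
      have : (fun s : ℝ => M s i j) = fun s => ⟪b i, b j⟫ + s * ⟪b i, N (b j)⟫ := by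
        funext s
        simp only [hM, Matrix.of_apply, _root_.smul_apply, inner_add_right, inner_smul_right]
      rw [this]
      have h6 := ((hasDerivAt_id (0:ℝ)).mul_const ⟪b i, N (b j)⟫).const_add ⟪b i, b j⟫
      simpa [hM'] using h6) (by rw [h4]; simp)
    rw [h3]
    refine h5.congr_deriv ?_
    rw [h4, Matrix.det_one, one_mul, inv_one, Matrix.one_mul, Matrix.trace,
      tr_eq_sum b]
    rfl
  exact h1.unique h2

/-- **the determinant near the identity** -/
lemma exists_det_bound (E : Type*) [NormedAddCommGroup E] [InnerProductSpace ℝ E]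
    [FiniteDimensional ℝ E] : ∃ C : ℝ, 0 ≤ C ∧ ∀ N : E →L[ℝ] E, ‖N‖ ≤ 1 →
    |dd N - 1 - tr N| ≤ C * ‖N‖ ^ 2 := by
  obtain ⟨C, hC, h⟩ := quad_bound (F := (dd : (E →L[ℝ] E) → ℝ)) contDiff_dd
  refine ⟨C, hC, fun N hN => ?_⟩
  have := h N hN
  rwa [dd_zero, fderiv_dd] at this

/-- square roots near one -/
lemma abs_sqrt_sub_le {v : ℝ} (hv : -1 ≤ v) : |√(1 + v) - 1 - v / 2| ≤ v ^ 2 / 2 := by
  have h0 : 0 ≤ 1 + v := by linarith
  have h1 : √(1 + v) ≤ 1 + v / 2 := by
    rw [Real.sqrt_le_left (by linarith)]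
    nlinarith [sq_nonneg v]
  have h2 : 1 + v / 2 - v ^ 2 / 2 ≤ √(1 + v) := by
    by_cases hc : v ≤ 2
    · refine Real.le_sqrt_of_sq_le ?_
      nlinarith [mul_nonneg (sq_nonneg v) (mul_nonneg h0 (by linarith : (0:ℝ) ≤ 3 - v))]
    · refine le_trans ?_ (Real.sqrt_nonneg _)
      nlinarith
  rw [abs_le]
  constructor
  · linarith
  · have : 0 ≤ v ^ 2 / 2 := by positivity
    linarith

end Vale.Agent.P214.LOC
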