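import Vale.Agent.P214.LOC.CmpF

/-!
# P214, block LOC-CMP, part G: expansion of the area element at `a`, change of variables
-/

open Set Filter Topology MeasureTheory Metric
open scoped RealInnerProductSpace ContDiff

set_option linter.all false

namespace Vale.Agent.P214.LOC

open Vale.Agent.P214.FV Vale.Agent.P214.FM

variable {E : Type*} [NormedAddCommGroup E] [InnerProductSpace ℝ E] [FiniteDimensional ℝ E]

lemma dd_comp (M N : E →L[ℝ] E) : dd (M + N + M.comp N) = dd M * dd N := by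
  unfold dd
  rw [← LinearMap.det_comp]
  congr 1
  ext v
  simp
  abel

/-- `A^* A` -/
noncomputable def AA (w : E → E) (x : E) : E →L[ℝ] E := (adj (fderiv ℝ w x)).comp (fderiv ℝ w x)

lemma areaEl_eq (w : E → E) (x : E) : areaEl w x = √(dd (AA w x)) := rfl

section

variable {T : Submodule ℝ E} {w : E → E} {ε κ : ℝ} {a : E}

/-- the increment of `A^* A` -/
noncomputable def E1 (w : E → E) (a x : E) : E →L[ℝ] E :=
  (adj (fderiv ℝ w a)).comp (dA w a x) + (adj (dA w a x)).comp (fderiv ℝ w a) +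
    (adj (dA w a x)).comp (dA w a x)

lemma AA_eq (x : E) : AA w x = AA w a + E1 w a x := by
  have h : fderiv ℝ w x = fderiv ℝ w a + dA w a x := by unfold dA; abel
  unfold AA E1
  rw [h, map_add]
  ext v
  simp
  abel

variable (hw : Ref T w ε κ)
include hw

/-- `(1 + A^*A) K v = p v + A^* v` -/
lemma Ma_Ka (v : E) : Ka T w a v + AA w a (Ka T w a v) =
    T.starProjection v + adj (fderiv ℝ w a) v := by
  set z := J0 w a v with hz
  have h1 : D0 w a z = v := D0_J0 w a v
  have h2 : T.starProjection v = T.starProjection z - adj (fderiv ℝ w a) z := by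
    rw [← h1, D0_apply, map_sub, map_add, hw.star_fderiv, hw.star_adj_fderiv, add_zero]
  have h3 : co T v = co T z + fderiv ℝ w a z := by
    rw [← h1, D0_apply, map_sub, map_add, hw.co_fderiv, hw.co_adj_fderiv, sub_zero]
  have h4 : adj (fderiv ℝ w a) v = adj (fderiv ℝ w a) z + AA w a z := by
    rw [← hw.adj_fderiv_co a v, h3, map_add, hw.adj_fderiv_co]
    rfl
  have h5 : AA w a (Ka T w a v) = AA w a z := by
    show adj (fderiv ℝ w a) (fderiv ℝ w a (T.starProjection z)) = _
    rw [hw.fderiv_star]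
    rfl
  rw [h5, h2, h4]
  show T.starProjection z + AA w a z = _
  abel

omit hw in
lemma Ma_inj {v : E} (h : v + AA w a v = 0) : v = 0 := by
  have h1 : ⟪v + AA w a v, v⟫ = 0 := by rw [h, inner_zero_left]
  rw [inner_add_left, real_inner_self_eq_norm_sq] at h1
  have h2 : ⟪AA w a v, v⟫ = ‖fderiv ℝ w a v‖ ^ 2 := by
    show ⟪adj (fderiv ℝ w a) (fderiv ℝ w a v), v⟫ = _
    rw [inner_adj_left, real_inner_self_eq_norm_sq]
  rw [h2] at h1
  have h3 : ‖v‖ ^ 2 = 0 := by nlinarith [sq_nonneg ‖v‖, sq_nonneg ‖fderiv ℝ w a v‖]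
  exact norm_eq_zero.1 (pow_eq_zero_iff (two_ne_zero) |>.1 h3)

lemma star_dA (x v : E) : T.starProjection (dA w a x v) = 0 := by
  unfold dA
  rw [ContinuousLinearMap.sub_apply, map_sub, hw.star_fderiv, hw.star_fderiv, sub_zero]

lemma star_adj_dA (x v : E) : T.starProjection (adj (dA w a x) v) = adj (dA w a x) v := by
  unfold dA
  rw [map_sub adj, ContinuousLinearMap.sub_apply, map_sub, hw.star_adj_fderiv, hw.star_adj_fderiv]

lemma star_E1 (x v : E) : T.starProjection (E1 w a x v) = E1 w a x v := by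
  unfold E1
  simp only [_root_.add_apply, ContinuousLinearMap.comp_apply, map_add, hw.star_adj_fderiv,
    star_adj_dA hw]

/-- `K A^* v = K v` for `v ⊥ T` -/
lemma Ka_adj {v : E} (hv : T.starProjection v = 0) :
    Ka T w a (adj (fderiv ℝ w a) v) = Ka T w a v := by
  have h1 := Ma_Ka (a := a) hw v
  have h2 := Ma_Ka (a := a) hw (adj (fderiv ℝ w a) v)
  rw [hv, zero_add] at h1
  have h3 : adj (fderiv ℝ w a) (adj (fderiv ℝ w a) v) = 0 := by
    rw [← hw.star_adj_fderiv a v, hw.adj_fderiv_star]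
  rw [h3, add_zero, hw.star_adj_fderiv] at h2
  replace h2 := h2.trans h1.symm
  have h4 : (Ka T w a (adj (fderiv ℝ w a) v) - Ka T w a v) +
      AA w a (Ka T w a (adj (fderiv ℝ w a) v) - Ka T w a v) = 0 := by
    rw [map_sub]
    have : ∀ A B C D : E, A + B = C + D → (A - C) + (B - D) = 0 := fun A B C D h => by
      rw [sub_add_sub_comm, h, sub_self]
    exact this _ _ _ _ h2
  exact sub_eq_zero.1 (Ma_inj h4)

/-- `K p` is symmetric -/
lemma adj_Ka_star : adj ((Ka T w a).comp T.starProjection) = (Ka T w a).comp T.starProjection := by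
  set K := (Ka T w a).comp T.starProjection with hK
  -- `(1 + AA) K = p`
  have h1 : ∀ v, K v + AA w a (K v) = T.starProjection v := by
    intro v
    have := Ma_Ka (a := a) hw (T.starProjection v)
    rw [star_self, hw.adj_fderiv_star, add_zero] at this
    exact this
  have h2 : ∀ v, T.starProjection (K v) = K v := fun v => star_Ka _
  have hAA : ∀ u v, ⟪AA w a u, v⟫ = ⟪u, AA w a v⟫ := by
    intro u v
    show ⟪adj (fderiv ℝ w a) (fderiv ℝ w a u), v⟫ = ⟪u, adj (fderiv ℝ w a) (fderiv ℝ w a v)⟫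
    rw [inner_adj_left, inner_adj_right]
  ext v
  refine ext_inner_right ℝ fun u => ?_
  rw [inner_adj_left]
  -- `⟪v, K u⟫ = ⟪p v, K u⟫ = ⟪K v + AA K v, K u⟫ = ⟪K v, K u + AA K u⟫ = ⟪K v, u⟫`
  calc ⟪v, K u⟫ = ⟪v, T.starProjection (K u)⟫ := by rw [h2]
    _ = ⟪T.starProjection v, K u⟫ := (inner_star T v (K u)).symm
    _ = ⟪K v + AA w a (K v), K u⟫ := by rw [h1]
    _ = ⟪K v, K u + AA w a (K u)⟫ := by rw [inner_add_left, inner_add_right, hAA]
    _ = ⟪K v, T.starProjection u⟫ := by rw [h1]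
    _ = ⟪K v, u⟫ := by rw [← inner_star, h2]

/-- the first order term of the area element -/
lemma tr_Ka_E1 (x : E) : tr ((Ka T w a).comp (E1 w a x)) =
    2 * tr ((Ka T w a).comp (dA w a x)) +
      tr ((Ka T w a).comp ((adj (dA w a x)).comp (dA w a x))) := by
  have h1 : (Ka T w a).comp ((adj (fderiv ℝ w a)).comp (dA w a x)) =
      (Ka T w a).comp (dA w a x) := by
    ext v
    exact Ka_adj hw (star_dA hw x v)
  have h2 : tr ((Ka T w a).comp ((adj (dA w a x)).comp (fderiv ℝ w a))) =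
      tr ((Ka T w a).comp (dA w a x)) := by
    set K := (Ka T w a).comp T.starProjection with hK
    have e1 : (Ka T w a).comp ((adj (dA w a x)).comp (fderiv ℝ w a)) =
        K.comp ((adj (dA w a x)).comp (fderiv ℝ w a)) := by
      ext v
      show Ka T w a (adj (dA w a x) (fderiv ℝ w a v)) =
        Ka T w a (T.starProjection (adj (dA w a x) (fderiv ℝ w a v)))
      rw [star_adj_dA hw]
    have e2 : (Ka T w a).comp ((adj (fderiv ℝ w a)).comp (dA w a x)) =
        K.comp ((adj (fderiv ℝ w a)).comp (dA w a x)) := by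
      ext v
      show Ka T w a (adj (fderiv ℝ w a) (dA w a x v)) =
        Ka T w a (T.starProjection (adj (fderiv ℝ w a) (dA w a x v)))
      rw [hw.star_adj_fderiv]
    rw [e1, ← tr_adj, adj_comp, adj_comp, adj_adj, adj_Ka_star hw, ← hK, tr_comp_comm, ← e2, h1]
  unfold E1
  rw [ContinuousLinearMap.comp_add, ContinuousLinearMap.comp_add, tr_add, tr_add, h1, h2]
  ring

/-- factorisation of the determinant -/
lemma dd_AA (x : E) : dd (AA w x) = dd (AA w a) * dd ((Ka T w a).comp (E1 w a x)) := by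
  rw [← dd_comp]
  congr 1
  rw [AA_eq (a := a)]
  ext v
  simp only [_root_.add_apply, ContinuousLinearMap.comp_apply]
  have h1 := Ma_Ka (a := a) hw (E1 w a x v)
  have h2 : adj (fderiv ℝ w a) (E1 w a x v) = 0 := by
    rw [← star_E1 hw, hw.adj_fderiv_star]
  rw [h2, add_zero, star_E1 hw] at h1
  calc AA w a v + E1 w a x v
      = AA w a v + (Ka T w a (E1 w a x v) + AA w a (Ka T w a (E1 w a x v))) := by rw [h1]
    _ = _ := by abel

lemma norm_dA_le (ha : a ∈ T) (x : E) : ‖dA w a x‖ ≤ κ * ‖T.starProjection x - a‖ := by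
  have hk := hw.knn
  refine ContinuousLinearMap.opNorm_le_bound _ (by positivity) fun v => ?_
  have h := norm_dA_apply_le (a := a) hw x v
  rwa [map_sub T.starProjection, Submodule.starProjection_eq_self_iff.2 ha] at h

/-- size of the increment -/
lemma norm_E1_le (hε : ε ≤ 1 / 16) {x : E} {δ : ℝ} (hδ : ‖dA w a x‖ ≤ δ) (hδ1 : δ ≤ 1 / 16) :
    ‖E1 w a x‖ ≤ δ := by
  have h0 : 0 ≤ δ := (norm_nonneg _).trans hδ
  have hA : ‖fderiv ℝ w a‖ ≤ 1 / 16 := (hw.slope a).trans hε
  have h1 : ‖(adj (fderiv ℝ w a)).comp (dA w a x)‖ ≤ 1 / 16 * δ := by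
    refine (ContinuousLinearMap.opNorm_comp_le _ _).trans ?_
    rw [norm_adj]
    gcongr
  have h2 : ‖(adj (dA w a x)).comp (fderiv ℝ w a)‖ ≤ δ * (1 / 16) := by
    refine (ContinuousLinearMap.opNorm_comp_le _ _).trans ?_
    rw [norm_adj]
    gcongr
  have h3 : ‖(adj (dA w a x)).comp (dA w a x)‖ ≤ δ * (1 / 16) := by
    refine (ContinuousLinearMap.opNorm_comp_le _ _).trans ?_
    rw [norm_adj]
    gcongr
    exact hδ.trans hδ1
  calc ‖E1 w a x‖ ≤ 1 / 16 * δ + δ * (1 / 16) + δ * (1 / 16) := by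
        unfold E1
        exact (norm_add_le _ _).trans (add_le_add ((norm_add_le _ _).trans (add_le_add h1 h2)) h3)
    _ ≤ δ := by linarith

end

/-! ### the area factor of the parametrisation -/

lemma det_one_add_comp' {m : ℕ} (L : EuclideanSpace ℝ (Fin m) →ₗ[ℝ] E)
    (M : E →ₗ[ℝ] EuclideanSpace ℝ (Fin m)) :
    LinearMap.det (LinearMap.id + L ∘ₗ M) = LinearMap.det (LinearMap.id + M ∘ₗ L) := by
  classical
  set b := (stdOrthonormalBasis ℝ E).toBasis
  set b' := (EuclideanSpace.basisFun (Fin m) ℝ).toBasis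
  rw [← LinearMap.det_toMatrix b, ← LinearMap.det_toMatrix b', map_add, map_add,
    LinearMap.toMatrix_id, LinearMap.toMatrix_id, LinearMap.toMatrix_comp b b' b,
    LinearMap.toMatrix_comp b' b b', Matrix.det_one_add_mul_comm]

section

variable {T : Submodule ℝ E} {w : E → E} {ε κ : ℝ} {a : E} {m : ℕ}

/-- the parametrisation of the tangent plane -/
noncomputable def Pa (w : E → E) (a : E) (i : EuclideanSpace ℝ (Fin m) →ₗᵢ[ℝ] E) :
    EuclideanSpace ℝ (Fin m) →L[ℝ] E := (D0 w a).comp i.toContinuousLinearMap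

lemma Pa_apply (i : EuclideanSpace ℝ (Fin m) →ₗᵢ[ℝ] E) (v : EuclideanSpace ℝ (Fin m)) :
    Pa w a i v = D0 w a (i v) := rfl

variable (hw : Ref T w ε κ) {i : EuclideanSpace ℝ (Fin m) →ₗᵢ[ℝ] E} (hi : range i = (T : Set E))
include hw hi

lemma i_mem (v : EuclideanSpace ℝ (Fin m)) : i v ∈ T := by
  have : i v ∈ range i := mem_range_self v
  rw [hi] at this
  exact this

lemma Pa_eq (v : EuclideanSpace ℝ (Fin m)) : Pa w a i v = i v + fderiv ℝ w a (i v) := by
  rw [Pa_apply, D0_apply, ← Submodule.starProjection_eq_self_iff.2 (i_mem hw hi v),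
    hw.adj_fderiv_star, hw.fderiv_star, sub_zero]

lemma range_Pa : LinearMap.range (Pa w a i).toLinearMap = planeOf T w a := by
  ext y
  rw [LinearMap.mem_range, hw.mem_planeOf_iff]
  constructor
  · rintro ⟨v, rfl⟩
    exact ⟨i v, i_mem hw hi v, rfl⟩
  · rintro ⟨v, hv, rfl⟩
    have : v ∈ range i := by rw [hi]; exact hv
    obtain ⟨u, rfl⟩ := this
    exact ⟨u, rfl⟩

/-- the area factor is the determinant of `1 + A^* A` -/
lemma normDet_Pa_sq : (Pa w a i).toLinearMap.normDet ^ 2 = dd (AA w a) := by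
  have h1 := (Pa w a i).toLinearMap.normDet_sq
  have h2 : ((Pa w a i).toLinearMap.adjoint ∘ₗ (Pa w a i).toLinearMap) =
      LinearMap.id + (i.toLinearMap.adjoint ∘ₗ (AA w a : E →ₗ[ℝ] E)) ∘ₗ i.toLinearMap := by
    ext1 v
    refine ext_inner_right ℝ fun u => ?_
    rw [LinearMap.comp_apply, LinearMap.adjoint_inner_left]
    show ⟪Pa w a i v, Pa w a i u⟫ = ⟪v + i.toLinearMap.adjoint (AA w a (i v)), u⟫
    rw [inner_add_left, LinearMap.adjoint_inner_left, Pa_eq hw hi, Pa_eq hw hi]
    show ⟪i v + fderiv ℝ w a (i v), i u + fderiv ℝ w a (i u)⟫ =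
      ⟪v, u⟫ + ⟪adj (fderiv ℝ w a) (fderiv ℝ w a (i v)), i u⟫
    rw [inner_adj_left, inner_add_left, inner_add_right, inner_add_right, i.inner_map_map]
    have h4 : ∀ u v, ⟪i u, fderiv ℝ w a v⟫ = 0 := fun u v =>
      Submodule.inner_right_of_mem_orthogonal (i_mem hw hi u)
        ((Submodule.starProjection_apply_eq_zero_iff T).1 (hw.star_fderiv _ _))
    rw [h4, add_zero, real_inner_comm (i u) (fderiv ℝ w a (i v)), h4, zero_add]
  rw [h2, ← det_one_add_comp'] at h1
  have h3 : (LinearMap.id + i.toLinearMap ∘ₗ (i.toLinearMap.adjoint ∘ₗ (AA w a : E →ₗ[ℝ] E))) =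
      ((ContinuousLinearMap.id ℝ E + AA w a : E →L[ℝ] E) : E →ₗ[ℝ] E) := by
    ext v
    show v + i (i.toLinearMap.adjoint (AA w a v)) = v + AA w a v
    congr 1
    -- `i i^* = p` on `T`
    have h4 : AA w a v ∈ range i := by
      rw [hi]
      have : T.starProjection (AA w a v) = AA w a v := hw.star_adj_fderiv a _
      exact Submodule.starProjection_eq_self_iff.1 this
    obtain ⟨u, hu⟩ := h4
    rw [← hu]
    congr 1
    refine ext_inner_right ℝ fun u' => ?_
    rw [LinearMap.adjoint_inner_left]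
    exact i.inner_map_map u u'
  rw [h3] at h1
  exact h1

lemma normDet_Pa : (Pa w a i).toLinearMap.normDet = areaEl w a := by
  rw [areaEl_eq, ← normDet_Pa_sq hw hi, Real.sqrt_sq (LinearMap.normDet_nonneg _)]

lemma dd_AA_pos : 0 < dd (AA w a) := by
  rw [← normDet_Pa_sq hw hi]
  have h1 : (Pa w a i).toLinearMap.normDet ≠ 0 := by
    intro h0
    rw [LinearMap.normDet_eq_zero_iff_ker_ne_bot] at h0
    refine h0 (LinearMap.ker_eq_bot.2 fun u v huv => ?_)
    have h2 : D0 w a (i u) = D0 w a (i v) := huv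
    have h3 := norm_le_norm_D0 w a (i u - i v)
    rw [map_sub, h2, sub_self, norm_zero, norm_le_zero_iff, sub_eq_zero] at h3
    exact i.injective h3
  positivity

end

end Vale.Agent.P214.LOC
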