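import Vale.Agent.P214.LOC.CmpG
import Vale.Agent.P214.INT.CutPlane
import Mathlib.Analysis.Calculus.LineDeriv.IntegrationByParts

/-!
# P214, block LOC-CMP, part H: integrals over `T`
-/

open Set Filter Topology MeasureTheory Metric
open scoped RealInnerProductSpace ContDiff

set_option linter.all false

namespace Vale.Agent.P214.LOC

open Vale.Agent.P214.FV Vale.Agent.P214.FM

variable {E : Type*} [NormedAddCommGroup E] [InnerProductSpace ℝ E] [FiniteDimensional ℝ E]
  [MeasurableSpace E] [BorelSpace E]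

/-- **expansion of the area element** -/
theorem exists_area_bound (E : Type*) [NormedAddCommGroup E] [InnerProductSpace ℝ E]
    [FiniteDimensional ℝ E] [MeasurableSpace E] [BorelSpace E] :
    ∃ C : ℝ, 0 ≤ C ∧ ∀ (T : Submodule ℝ E) (w : E → E) (ε κ : ℝ) (a x : E), Ref T w ε κ →
      ε ≤ 1 / 16 → a ∈ T → κ * ‖T.starProjection x - a‖ ≤ 1 / 16 →
      |areaEl w x - areaEl w a * (1 + tr ((Ka T w a).comp (dA w a x)))| ≤
        C * (κ * ‖T.starProjection x - a‖) ^ 2 := by
  obtain ⟨Cd, hCd, hdet⟩ := exists_det_bound E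
  set n : ℝ := (Module.finrank ℝ E : ℝ) with hn
  have hn0 : 0 ≤ n := by positivity
  refine ⟨(1 + n + Cd) * ((n + Cd) / 2 + (3 * n + Cd) ^ 2 / 2), by positivity, ?_⟩
  intro T w ε κ a x hw hε ha hδ1
  have hk := hw.knn
  set δ := κ * ‖T.starProjection x - a‖ with hδ
  have hδ0 : 0 ≤ δ := by positivity
  have hdA : ‖dA w a x‖ ≤ δ := norm_dA_le hw ha x
  obtain ⟨i, hi, -⟩ := INT.exists_plane_param (E := E) (T := T) rfl
  have hpos := dd_AA_pos hw hi (a := a)
  have hposx := dd_AA_pos hw hi (a := x)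
  -- the operator `K E₁`
  set N := (Ka T w a).comp (E1 w a x) with hN
  have hNn : ‖N‖ ≤ δ := by
    refine (ContinuousLinearMap.opNorm_comp_le _ _).trans ?_
    calc ‖Ka T w a‖ * ‖E1 w a x‖ ≤ 1 * δ := by
          gcongr
          · exact norm_Ka_le
          · exact norm_E1_le hw hε hdA hδ1
      _ = δ := one_mul _
  have hN1 : ‖N‖ ≤ 1 := hNn.trans (by linarith)
  have h1 := hdet N hN1
  set s := tr ((Ka T w a).comp (dA w a x)) with hs
  set τ := tr ((Ka T w a).comp ((adj (dA w a x)).comp (dA w a x))) with hτ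
  have h2 : tr N = 2 * s + τ := tr_Ka_E1 hw x
  have hsb : |s| ≤ n * δ := by
    refine (abs_tr_le _).trans ?_
    gcongr
    refine (ContinuousLinearMap.opNorm_comp_le _ _).trans ?_
    calc ‖Ka T w a‖ * ‖dA w a x‖ ≤ 1 * δ := by
          gcongr
          exact norm_Ka_le
      _ = δ := one_mul _
  have hτb : |τ| ≤ n * δ ^ 2 := by
    refine (abs_tr_le _).trans ?_
    gcongr
    refine (ContinuousLinearMap.opNorm_comp_le _ _).trans ?_
    calc ‖Ka T w a‖ * ‖(adj (dA w a x)).comp (dA w a x)‖ ≤ 1 * (δ * δ) := by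
          gcongr
          · exact norm_Ka_le
          · refine (ContinuousLinearMap.opNorm_comp_le _ _).trans ?_
            rw [norm_adj]
            gcongr
      _ = δ ^ 2 := by ring
  -- `dd N = 1 + v`
  set v := dd N - 1 with hv
  have hfac : dd (AA w x) = dd (AA w a) * (1 + v) := by
    rw [dd_AA (a := a) hw x, hv, ← hN]; ring
  have hv1 : 0 < 1 + v := by
    by_contra hc
    rw [not_lt] at hc
    have := mul_nonpos_of_nonneg_of_nonpos hpos.le hc
    rw [← hfac] at this
    linarith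
  have hρ : |v - 2 * s| ≤ (n + Cd) * δ ^ 2 := by
    have e1 : v - 2 * s = (dd N - 1 - tr N) + τ := by rw [h2, hv]; ring
    rw [e1]
    calc |dd N - 1 - tr N + τ| ≤ Cd * ‖N‖ ^ 2 + n * δ ^ 2 :=
          (abs_add_le _ _).trans (add_le_add h1 hτb)
      _ ≤ Cd * δ ^ 2 + n * δ ^ 2 := by gcongr
      _ = _ := by ring
  have hδ2 : δ ^ 2 ≤ δ := by nlinarith
  have hvb : |v| ≤ (3 * n + Cd) * δ := by
    have e1 : v = (v - 2 * s) + 2 * s := by ring
    rw [e1]
    calc |v - 2 * s + 2 * s| ≤ (n + Cd) * δ ^ 2 + 2 * (n * δ) := by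
          refine (abs_add_le _ _).trans (add_le_add hρ ?_)
          rw [abs_mul, abs_of_pos (by norm_num : (0:ℝ) < 2)]
          linarith
      _ ≤ (n + Cd) * δ + 2 * (n * δ) := by gcongr
      _ = _ := by ring
  have h3 := abs_sqrt_sub_le (v := v) (by linarith)
  have h4 : |√(1 + v) - (1 + s)| ≤ ((n + Cd) / 2 + (3 * n + Cd) ^ 2 / 2) * δ ^ 2 := by
    have e1 : √(1 + v) - (1 + s) = (√(1 + v) - 1 - v / 2) + (v - 2 * s) / 2 := by ring
    rw [e1]
    have e2 : v ^ 2 ≤ ((3 * n + Cd) * δ) ^ 2 := by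
      rw [← sq_abs]
      gcongr
    calc |(√(1 + v) - 1 - v / 2) + (v - 2 * s) / 2| ≤ v ^ 2 / 2 + (n + Cd) * δ ^ 2 / 2 := by
          refine (abs_add_le _ _).trans (add_le_add h3 ?_)
          rw [abs_div, abs_of_pos (by norm_num : (0:ℝ) < 2)]
          gcongr
      _ ≤ ((3 * n + Cd) * δ) ^ 2 / 2 + (n + Cd) * δ ^ 2 / 2 := by gcongr
      _ = _ := by ring
  -- size of the area element at `a`
  have h5 : areaEl w a ≤ 1 + n + Cd := by
    have hA : ‖AA w a‖ ≤ 1 := by
      unfold AA
      refine (ContinuousLinearMap.opNorm_comp_le _ _).trans ?_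
      rw [norm_adj]
      have := (hw.slope a).trans hε
      nlinarith [norm_nonneg (fderiv ℝ w a)]
    have h6 := hdet (AA w a) hA
    have h7 : |tr (AA w a)| ≤ n * 1 := (abs_tr_le _).trans (by gcongr)
    have h8 : dd (AA w a) ≤ 1 + n + Cd := by
      have e1 := (abs_le.1 h6).2
      have e2 := (abs_le.1 h7).2
      have e3 : Cd * ‖AA w a‖ ^ 2 ≤ Cd * 1 := by
        gcongr
        exact pow_le_one₀ (norm_nonneg _) hA
      linarith
    rw [areaEl_eq, Real.sqrt_le_left (by positivity)]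
    have : 1 ≤ 1 + n + Cd := by linarith
    nlinarith
  have h6 : areaEl w x = areaEl w a * √(1 + v) := by
    rw [areaEl_eq, areaEl_eq, hfac, Real.sqrt_mul hpos.le]
  rw [h6, ← mul_sub, abs_mul, abs_of_nonneg (show 0 ≤ areaEl w a from Real.sqrt_nonneg _)]
  calc areaEl w a * |√(1 + v) - (1 + s)|
      ≤ (1 + n + Cd) * (((n + Cd) / 2 + (3 * n + Cd) ^ 2 / 2) * δ ^ 2) := by gcongr
    _ = _ := by ring

/-! ### divergence theorem on a plane -/

lemma tr_comp_star {m : ℕ} {T : Submodule ℝ E} {i : EuclideanSpace ℝ (Fin m) →ₗᵢ[ℝ] E}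
    (hi : range i = (T : Set E)) (B : E →L[ℝ] E) :
    tr (B.comp T.starProjection) = ∑ k, ⟪i (EuclideanSpace.basisFun (Fin m) ℝ k),
      B (i (EuclideanSpace.basisFun (Fin m) ℝ k))⟫ := by
  have h1 : ((B.comp T.starProjection : E →L[ℝ] E) : E →ₗ[ℝ] E) =
      ((B : E →ₗ[ℝ] E) ∘ₗ i.toLinearMap) ∘ₗ i.toLinearMap.adjoint := by
    ext v
    show B (T.starProjection v) = B (i (i.toLinearMap.adjoint v))
    congr 1
    have h2 : T.starProjection v ∈ range i := by rw [hi]; exact T.starProjection_apply_mem v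
    obtain ⟨u, hu⟩ := h2
    rw [← hu]
    congr 1
    refine ext_inner_right ℝ fun u' => ?_
    rw [LinearMap.adjoint_inner_left]
    show ⟪u, u'⟫ = ⟪v, i u'⟫
    have h3 : i u' ∈ T := by
      have : i u' ∈ range i := mem_range_self u'
      rw [hi] at this; exact this
    rw [← Submodule.starProjection_eq_self_iff.2 h3, ← inner_star, ← hu, i.inner_map_map]
  unfold tr
  rw [h1, LinearMap.trace_comp_comm', ← LinearMap.comp_assoc]
  rw [LinearMap.trace_eq_sum_inner _ (EuclideanSpace.basisFun (Fin m) ℝ)]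
  refine Finset.sum_congr rfl fun k _ => ?_
  rw [LinearMap.comp_apply, LinearMap.comp_apply, LinearMap.adjoint_inner_right]
  rfl

/-- divergence theorem on a plane -/
theorem integral_div_zero {m : ℕ} {T : Submodule ℝ E} (hT : Module.finrank ℝ T = m) {V : E → E}
    (hV : ContDiff ℝ 1 V) {a : E} {R : ℝ} (hs : ∀ x ∈ T, R ≤ ‖x - a‖ → V x = 0) :
    ∫ x in (T : Set E), tr ((fderiv ℝ V x).comp T.starProjection) ∂μH[m] = 0 := by
  obtain ⟨i, hi, hint⟩ := INT.exists_plane_param (E := E) hT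
  have hVd : Differentiable ℝ V := hV.differentiable (by norm_num)
  have hc : Continuous fun x => tr ((fderiv ℝ V x).comp T.starProjection) := by
    refine continuous_tr.comp ?_
    exact (hV.continuous_fderiv (by norm_num)).clm_comp continuous_const
  rw [hint _ hc]
  simp only [tr_comp_star hi]
  set b := EuclideanSpace.basisFun (Fin m) ℝ with hb
  set g : Fin m → EuclideanSpace ℝ (Fin m) → ℝ := fun k ξ => ⟪i (b k), V (i ξ)⟫ with hg
  have hgc : ∀ k, ContDiff ℝ 1 (g k) := fun k =>
    contDiff_const.inner ℝ (hV.comp i.toContinuousLinearMap.contDiff)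
  have hgd : ∀ k ξ, fderiv ℝ (g k) ξ (b k) = ⟪i (b k), fderiv ℝ V (i ξ) (i (b k))⟫ := by
    intro k ξ
    have h1 : HasFDerivAt (fun ξ => V (i ξ)) ((fderiv ℝ V (i ξ)).comp i.toContinuousLinearMap) ξ :=
      (hVd (i ξ)).hasFDerivAt.comp ξ i.toContinuousLinearMap.hasFDerivAt
    have h2 := (hasFDerivAt_const (i (b k)) ξ).inner ℝ h1
    have h3 : fderiv ℝ (g k) ξ = _ := h2.fderiv
    rw [h3]
    simp
  have hcs : ∀ k, HasCompactSupport (g k) := by
    intro k
    have h1 : IsCompact (closedBall (0 : EuclideanSpace ℝ (Fin m)) (‖a‖ + R)) :=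
      isCompact_closedBall _ _
    refine HasCompactSupport.intro h1 fun ξ hξ => ?_
    rw [mem_closedBall, dist_zero_right, not_le] at hξ
    have h2 : i ξ ∈ T := by
      have : i ξ ∈ range i := mem_range_self ξ
      rw [hi] at this; exact this
    have h3 : R ≤ ‖i ξ - a‖ := by
      have : ‖i ξ‖ ≤ ‖i ξ - a‖ + ‖a‖ := by
        calc ‖i ξ‖ = ‖(i ξ - a) + a‖ := by congr 1; abel
          _ ≤ _ := norm_add_le _ _
      rw [i.norm_map] at this
      linarith
    simp only [hg, hs _ h2 h3, inner_zero_right]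
  haveI := INT.haar_euclid m
  have hzero : ∀ k, ∫ ξ, fderiv ℝ (g k) ξ (b k) ∂(μH[m] : Measure (EuclideanSpace ℝ (Fin m))) = 0 := by
    intro k
    have hgi : Integrable (g k) (μH[m] : Measure (EuclideanSpace ℝ (Fin m))) :=
      (hgc k).continuous.integrable_of_hasCompactSupport (hcs k)
    have hdi : Integrable (fun ξ => fderiv ℝ (g k) ξ (b k))
        (μH[m] : Measure (EuclideanSpace ℝ (Fin m))) := by
      refine Continuous.integrable_of_hasCompactSupport ?_ ?_
      · exact ((hgc k).continuous_fderiv (by norm_num)).clm_apply continuous_const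
      · exact (hcs k).fderiv_apply (𝕜 := ℝ) (b k)
    have h1 := integral_mul_fderiv_eq_neg_fderiv_mul_of_integrable
      (μ := (μH[m] : Measure (EuclideanSpace ℝ (Fin m)))) (𝕜 := ℝ)
      (f := fun _ : EuclideanSpace ℝ (Fin m) => (1:ℝ)) (g := g k) (v := b k)
      (by simp) (by simpa using hdi) (by simpa using hgi)
      (fun x _ => differentiableAt_const _)
      (fun x _ => (hgc k).differentiable (by norm_num) x)
    simpa using h1
  rw [integral_finset_sum]
  · refine Finset.sum_eq_zero fun k _ => ?_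
    rw [← hzero k]
    refine integral_congr_ae (Eventually.of_forall fun ξ => ?_)
    exact (hgd k ξ).symm
  · intro k _
    have hdi : Integrable (fun ξ => fderiv ℝ (g k) ξ (b k))
        (μH[m] : Measure (EuclideanSpace ℝ (Fin m))) := by
      refine Continuous.integrable_of_hasCompactSupport ?_ ?_
      · exact ((hgc k).continuous_fderiv (by norm_num)).clm_apply continuous_const
      · exact (hcs k).fderiv_apply (𝕜 := ℝ) (b k)
    refine hdi.congr (Eventually.of_forall fun ξ => ?_)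
    exact hgd k ξ

end Vale.Agent.P214.LOC
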