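import Vale.Agent.P214.LOC.CmpH
import Vale.Agent.P214.LOC.CmpE

/-!
# P214, block LOC-CMP, part I: the comparison theorem for one cell
-/

open Set Filter Topology MeasureTheory Metric
open scoped RealInnerProductSpace ContDiff

set_option linter.all false

namespace Vale.Agent.P214.LOC

open Vale.Agent.P214.FV Vale.Agent.P214.FM

variable {E : Type*} [NormedAddCommGroup E] [InnerProductSpace ℝ E] [FiniteDimensional ℝ E]
  [MeasurableSpace E] [BorelSpace E]

/-- the pull back of a base function to the tangent plane at `a` -/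
noncomputable def psi (T : Submodule ℝ E) (w : E → E) (a : E) (f : E → ℝ) (ξ : E) : ℝ :=
  f (a + Ka T w a (ξ - za T w a))

section

variable {m : ℕ} {T : Submodule ℝ E} {w : E → E} {ε κ : ℝ} {a : E} {R : ℝ} {f : E → ℝ}

lemma Ka_D0 (v : E) : Ka T w a (D0 w a v) = T.starProjection v := by
  rw [Ka_apply, J0_D0]

lemma psi_PS (hw : Ref T w ε κ) (y : E) : psi T w a f (PS T w a y) = f (Xa T w a y) := by
  unfold psi za
  rw [Xa_eq_PS hw]

lemma psi_param (hw : Ref T w ε κ) (ha : a ∈ T) {x : E} (hx : x ∈ T) :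
    psi T w a f (za T w a + D0 w a (x - a)) = f x := by
  unfold psi
  rw [add_sub_cancel_left, Ka_D0, Submodule.starProjection_eq_self_iff.2 (T.sub_mem hx ha)]
  congr 1; abel

lemma continuous_psi {g : E → ℝ} (hg : Continuous g) : Continuous (psi T w a g) := by
  unfold psi; fun_prop

/-- change of variables -/
theorem integral_plane_eq (hw : Ref T w ε κ) (hT : Module.finrank ℝ T = m) (ha : a ∈ T)
    {g : E → ℝ} (hg : Continuous g) :
    ∫ ξ in (planeOf T w a : Set E), psi T w a g ξ ∂μH[m] =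
      areaEl w a * ∫ x in (T : Set E), g x ∂μH[m] := by
  obtain ⟨i, hi, hint⟩ := INT.exists_plane_param (E := E) hT
  haveI := INT.haar_euclid m
  rw [CST.integral_range_eq (Pa w a i) (range_Pa hw hi) (continuous_psi hg), hint g hg,
    normDet_Pa hw hi, integral_const_mul]
  congr 1
  -- the base points
  obtain ⟨ξ₀, hξ₀⟩ : a ∈ range i := by rw [hi]; exact ha
  obtain ⟨v₀, hv₀, hz₀⟩ := (hw.mem_planeOf_iff a (za T w a)).1 (Submodule.starProjection_apply_mem _ _)
  obtain ⟨η₀, hη₀⟩ : v₀ ∈ range i := by rw [hi]; exact hv₀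
  have h1 : ∀ ξ, psi T w a g (Pa w a i ξ) = g (i (ξ + (ξ₀ - η₀))) := by
    intro ξ
    unfold psi
    have h2 : Pa w a i ξ - za T w a = D0 w a (i (ξ - η₀)) := by
      rw [Pa_apply, ← hz₀, ← hη₀, ← map_sub (D0 w a), ← map_sub i]
    rw [h2, Ka_D0, Submodule.starProjection_eq_self_iff.2 (i_mem hw hi _), ← hξ₀, ← map_add]
    congr 2
    abel
  simp only [h1]
  exact integral_add_right_eq_self (μ := (μH[m] : Measure (EuclideanSpace ℝ (Fin m))))
    (fun ξ => g (i ξ)) (ξ₀ - η₀)

/-- the cancellation on the plane -/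
theorem integral_Gf (hw : Ref T w ε κ) (hf : Tst T a R f) (hT : Module.finrank ℝ T = m)
    (ha : a ∈ T) :
    ∫ x in (T : Set E), (Gf T w a f x + f x * tr ((Ka T w a).comp (dA w a x))) ∂μH[m] = 0 := by
  set V : E → E := fun x => f x • Ka T w a (wr w a x) with hV
  have hwr : ContDiff ℝ 1 (wr w a) := by
    unfold wr
    have h1 : ContDiff ℝ 1 w := hw.smooth.of_le (WithTop.coe_le_coe.2 le_top)
    exact (h1.sub contDiff_const).sub ((fderiv ℝ w a).contDiff.comp (contDiff_id.sub contDiff_const))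
  have hVc : ContDiff ℝ 1 V :=
    hf.smooth.smul ((Ka T w a).contDiff.comp hwr)
  have h0 := integral_div_zero hT hVc (a := a) (R := R) (fun x hx hxR => by
    simp only [hV]
    rw [hf.supp x (by rw [Submodule.starProjection_eq_self_iff.2 hx]; exact hxR), zero_smul])
  rw [← h0]
  refine integral_congr_ae (Eventually.of_forall fun x => ?_)
  have h1 : HasFDerivAt V (f x • (Ka T w a).comp (dA w a x) +
      (fderiv ℝ f x).smulRight (Ka T w a (wr w a x))) x :=
    (hf.diff x).hasFDerivAt.smul ((Ka T w a).hasFDerivAt.comp x (hasFDerivAt_wr hw x))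
  simp only
  rw [h1.fderiv, ContinuousLinearMap.add_comp, tr_add, add_comm]
  congr 1
  · rw [← tr_smul]
    congr 1
    ext v
    show f x • Ka T w a (dA w a x v) = f x • Ka T w a (dA w a x (T.starProjection v))
    congr 2
    unfold dA
    rw [ContinuousLinearMap.sub_apply, ContinuousLinearMap.sub_apply, hw.fderiv_star,
      hw.fderiv_star]
  · have h2 : ((fderiv ℝ f x).smulRight (Ka T w a (wr w a x))).comp T.starProjection =
        ((fderiv ℝ f x).comp T.starProjection).smulRight (Ka T w a (wr w a x)) := by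
      ext v
      simp
    rw [h2, tr_smulRight, ContinuousLinearMap.comp_apply, star_Ka]
    rfl

/-- integrability and size of a bounded function with support in the cell -/
lemma plane_integral_le (hT : Module.finrank ℝ T = m) (ha : a ∈ T) (hR : 0 < R) {g : E → ℝ}
    (hg : Continuous g) {B : ℝ} (hB : 0 ≤ B) (hgB : ∀ x ∈ T, |g x| ≤ B)
    (hs : ∀ x ∈ T, R ≤ ‖x - a‖ → g x = 0) :
    IntegrableOn g (T : Set E) μH[m] ∧
      |∫ x in (T : Set E), g x ∂μH[m]| ≤ B * (2 * cg m * (2 * R) ^ m) := by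
  have hcg := cg_pos m
  have hcut := INT.integral_cut_plane hT ha (r := 2 * R) (by positivity)
  have hci : IntegrableOn (fun y => cut a (2 * R) y) (T : Set E) μH[m] := by
    by_contra h
    have h0 := integral_undef h
    rw [hcut] at h0
    have : 0 < cg m * (2 * R) ^ m := by positivity
    linarith
  have hTm : MeasurableSet (T : Set E) := T.closed_of_finiteDimensional.measurableSet
  have hbd : ∀ᵐ x ∂((μH[m] : Measure E).restrict T), ‖g x‖ ≤ 2 * B * cut a (2 * R) x := by
    filter_upwards [ae_restrict_mem hTm] with x hx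
    rw [Real.norm_eq_abs]
    by_cases h : R ≤ ‖x - a‖
    · rw [hs x hx h, abs_zero]
      have := cut_nonneg a (2 * R) x
      positivity
    · rw [not_le] at h
      have h1 : 1 / 2 ≤ cut a (2 * R) x := by
        unfold cut prof
        have h2 : ‖x - a‖ ^ 2 / (2 * R) ^ 2 ≤ 1 / 4 := by
          rw [div_le_iff₀ (by positivity)]
          have : ‖x - a‖ ^ 2 ≤ R ^ 2 := by gcongr
          linarith
        rw [max_eq_left (by linarith)]
        nlinarith
      have h3 := hgB x hx
      nlinarith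
  have hi : IntegrableOn g (T : Set E) μH[m] :=
    (hci.const_mul (2 * B)).mono' hg.aestronglyMeasurable hbd
  refine ⟨hi, ?_⟩
  have h1 := norm_integral_le_of_norm_le (hci.const_mul (2 * B)) hbd
  rw [integral_const_mul, hcut, Real.norm_eq_abs] at h1
  refine h1.trans (le_of_eq ?_)
  ring

lemma continuous_areaEl (hw : Ref T w ε κ) : Continuous (areaEl w) := by
  have h1 : areaEl w = fun x => √(dd (AA w x)) := rfl
  rw [h1]
  refine Real.continuous_sqrt.comp (contDiff_dd.continuous.comp ?_)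
  unfold AA
  have h2 := hw.smooth1.continuous
  exact ((adj (E := E)).continuous.comp h2).clm_comp h2

/-- the flat functional of a pulled back function -/
lemma ffl_psi (hw : Ref T w ε κ) (hT : Module.finrank ℝ T = m) (ha : a ∈ T) (Q : ℕ)
    {ν : Measure E} {P : E → E →L[ℝ] E} {g : E → ℝ} (hg : Continuous g) :
    Skel.Ffl m Q (planeOf T w a) ν P (psi T w a g) =
      (∫ y, g (Xa T w a y) * (1 - tilt (planeOf T w a) (P y) / 2) ∂ν) -
        Q * (areaEl w a * ∫ x in (T : Set E), g x ∂μH[m]) := by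
  unfold Skel.Ffl
  rw [integral_plane_eq hw hT ha hg]
  congr 1
  refine integral_congr_ae (Eventually.of_forall fun y => ?_)
  show psi T w a g (PS T w a y) * _ = _
  rw [psi_PS hw]

/-- the tilt part of the `Gf` integral -/
lemma tilt_part {ν : Measure E} {P : E → E →L[ℝ] E} {h₁ h U : ℝ} {G : Set E}
    (H : Adm T w ε κ h₁) (hf : Tst T a R f) (ha : a ∈ T)
    (hC : CylStat m (planeOf T w a) G h ν P) (hU0 : 0 ≤ U)
    (hU : ∀ᵐ y ∂ν, ‖co T (PsiInv T w h₁ y)‖ ≤ h₁) :
    0 ≤ ∫ y in Skel.cylSet (planeOf T w a) (za T w a) (2 * R), Er T w h₁ a κ R U P y ∂ν ∧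
    |(∫ y, Gf T w a f (Xa T w a y) * (1 - tilt (planeOf T w a) (P y) / 2) ∂ν) -
      ∫ y, Gf T w a f (Xa T w a y) ∂ν| ≤
      ∫ y in Skel.cylSet (planeOf T w a) (za T w a) (2 * R), Er T w h₁ a κ R U P y ∂ν := by
  have hw := H.ref
  have hk := hw.knn
  have hR := hf.pos
  have hε : ε ≤ 1 / 16 := H.hε.trans eps0_le
  haveI := hC.fin
  set n : ℝ := (Module.finrank ℝ E : ℝ) with hn
  have hn0 : 0 ≤ n := by positivity
  set S := planeOf T w a with hS
  set D : Set E := Skel.cylSet S (za T w a) (2 * R) with hD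
  have hDm : MeasurableSet D := (isOpen_ball.preimage S.starProjection.continuous).measurableSet
  have cXa : Continuous (Xa T w a) := (contDiff_Xa (n := 0)).continuous
  have hGc := continuous_Gf H hf
  have mt : AEStronglyMeasurable (fun y => tilt S (P y)) ν := by
    have : (fun y => tilt S (P y)) = fun y => tr ((co S).comp (P y)) := rfl
    rw [this]
    exact aesm_tr_comp (B := fun _ => co S) continuous_const hC.meas
  have bt : ∀ᵐ y ∂ν, 0 ≤ tilt S (P y) ∧ tilt S (P y) ≤ n := by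
    filter_upwards [hC.proj] with y hy
    obtain ⟨Q, hQ, hPy⟩ := hy
    rw [hPy]
    refine ⟨tilt_nonneg Q S, (tilt_le Q S).trans ?_⟩
    rw [hn]
    exact_mod_cast Submodule.finrank_le Q
  have mG : AEStronglyMeasurable (fun y => Gf T w a f (Xa T w a y)) ν :=
    (hGc.comp cXa).aestronglyMeasurable
  have iG : Integrable (fun y => Gf T w a f (Xa T w a y)) ν :=
    integrable_of_bdd mG (C := κ * R) (Eventually.of_forall fun y =>
      abs_Gf_le H hf ha (star_Xa ha y))
  have iGt : Integrable (fun y => Gf T w a f (Xa T w a y) * (tilt S (P y) / 2)) ν := by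
    refine integrable_of_bdd (mG.mul (mt.mul_const (1/2) |>.congr
      (Eventually.of_forall fun y => by simp [div_eq_mul_inv]))) (C := κ * R * n) ?_
    filter_upwards [bt] with y hy
    rw [abs_mul]
    gcongr
    · exact abs_Gf_le H hf ha (star_Xa ha y)
    · rw [abs_of_nonneg (by linarith [hy.1])]
      linarith [hy.2]
  have hG1 : (∫ y, Gf T w a f (Xa T w a y) * (1 - tilt S (P y) / 2) ∂ν) -
      (∫ y, Gf T w a f (Xa T w a y) ∂ν) =
        -∫ y, Gf T w a f (Xa T w a y) * (tilt S (P y) / 2) ∂ν := by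
    have : (∫ y, Gf T w a f (Xa T w a y) * (1 - tilt S (P y) / 2) ∂ν) =
        (∫ y, Gf T w a f (Xa T w a y) ∂ν) -
          ∫ y, Gf T w a f (Xa T w a y) * (tilt S (P y) / 2) ∂ν := by
      rw [← integral_sub iG iGt]
      refine integral_congr_ae (Eventually.of_forall fun y => ?_)
      show _ * _ = _ - _
      ring
    rw [this]; ring
  have cPI : Continuous (PsiInv T w h₁) := H.contDiff_PsiInv.continuous
  have mE : AEStronglyMeasurable (Er T w h₁ a κ R U P) ν := by
    unfold Er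
    refine ((mt.const_mul _).add ((Real.continuous_sqrt.comp_aestronglyMeasurable mt).const_mul _)).add
      (Continuous.aestronglyMeasurable ?_)
    have : Continuous fun y => ‖co T (PsiInv T w h₁ y)‖ := ((co T).continuous.comp cPI).norm
    fun_prop
  have nE : ∀ᵐ y ∂ν, κ * R * tilt S (P y) ≤ Er T w h₁ a κ R U P y ∧ 0 ≤ Er T w h₁ a κ R U P y ∧
      Er T w h₁ a κ R U P y ≤ κ * (R + U) * n + κ * R * √n + κ ^ 2 * (R ^ 2 + h₁ ^ 2) := by
    filter_upwards [bt, hU] with y hy hyU
    have h1 := hy.1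
    have h2 : κ * R * tilt S (P y) ≤ κ * (R + U) * tilt S (P y) := by
      have : R ≤ R + U := by linarith
      gcongr
    have h3 : 0 ≤ κ * R * tilt S (P y) := by positivity
    have h4 : 0 ≤ κ * R * √(tilt S (P y)) := by positivity
    have h5 : 0 ≤ κ ^ 2 * (R ^ 2 + ‖co T (PsiInv T w h₁ y)‖ ^ 2) := by positivity
    unfold Er
    refine ⟨by linarith, by linarith, ?_⟩
    gcongr
    · exact hy.2
    · exact hy.2
  have iE : Integrable (Er T w h₁ a κ R U P) ν := by
    refine integrable_of_bdd mE ?_ (C := κ * (R + U) * n + κ * R * √n + κ ^ 2 * (R ^ 2 + h₁ ^ 2))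
    filter_upwards [nE] with y hy
    rw [abs_of_nonneg hy.2.1]; exact hy.2.2
  constructor
  · refine integral_nonneg_of_ae ?_
    filter_upwards [ae_restrict_of_ae nE] with y hy using hy.2.1
  rw [hG1, abs_neg, ← integral_indicator hDm]
  refine (abs_integral_le_integral_abs).trans (integral_mono_ae iGt.abs (iE.indicator hDm) ?_)
  filter_upwards [bt, nE] with y hy hyE
  by_cases hyD : y ∈ D
  · rw [indicator_of_mem hyD, abs_mul, abs_of_nonneg (show 0 ≤ tilt S (P y) / 2 by linarith [hy.1])]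
    have h1 := abs_Gf_le H hf ha (star_Xa (w := w) ha y)
    have h2 : |Gf T w a f (Xa T w a y)| * (tilt S (P y) / 2) ≤ κ * R * (tilt S (P y) / 2) := by
      have := hy.1
      gcongr
    have h3 : 0 ≤ κ * R * tilt S (P y) := by have := hy.1; positivity
    linarith [hyE.1]
  · rw [indicator_of_notMem hyD]
    have h1 : R < ‖Xa T w a y - a‖ := by
      have h2 : 2 * R ≤ ‖PS T w a (y - (a + w a))‖ := by
        rw [hD, Skel.cylSet, mem_setOf_eq, mem_ball, dist_eq_norm, not_lt] at hyD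
        rw [map_sub]; exact hyD
      rw [PS_sub_eq hw] at h2
      have h3 := hw.norm_D0_apply_le hε a (Xa T w a y - a)
      linarith
    have h2 : Gf T w a f (Xa T w a y) = 0 := by
      unfold Gf; rw [(Tst.Xa_zero hw hf ha h1).2]; simp
    rw [h2, zero_mul, abs_zero]

/-- **The plane side.** -/
lemma plane_side (hw : Ref T w ε κ) (hε : ε ≤ 1 / 16) (hf : Tst T a R f)
    (hT : Module.finrank ℝ T = m) (ha : a ∈ T) (hκR : κ * R ≤ 1 / 16) {C₁ : ℝ} (hC₁ : 0 ≤ C₁)
    (hGc : Continuous (Gf T w a f)) (hGb : ∀ x ∈ T, |Gf T w a f x| ≤ κ * R)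
    (harea : ∀ x, κ * ‖T.starProjection x - a‖ ≤ 1 / 16 →
      |areaEl w x - areaEl w a * (1 + tr ((Ka T w a).comp (dA w a x)))| ≤
        C₁ * (κ * ‖T.starProjection x - a‖) ^ 2) :
    |(∫ x in (T : Set E), f x * areaEl w x ∂μH[m]) -
      areaEl w a * (∫ x in (T : Set E), f x ∂μH[m]) +
      areaEl w a * (∫ x in (T : Set E), Gf T w a f x ∂μH[m])| ≤
      C₁ * (2 * cg m * 2 ^ m) * (κ ^ 2 * R ^ 2 * R ^ m) := by
  have hk := hw.knn
  have hR := hf.pos
  set n : ℝ := (Module.finrank ℝ E : ℝ) with hn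
  have hn0 : 0 ≤ n := by positivity
  set tf : E → ℝ := fun x => f x * tr ((Ka T w a).comp (dA w a x)) with htf
  have ctf : Continuous tf := by
    refine hf.smooth.continuous.mul (continuous_tr.comp (continuous_const.clm_comp ?_))
    unfold dA
    exact hw.smooth1.continuous.sub continuous_const
  have hstar : ∀ x ∈ T, T.starProjection x = x := fun x hx =>
    Submodule.starProjection_eq_self_iff.2 hx
  have hf0 : ∀ x ∈ T, R ≤ ‖x - a‖ → f x = 0 := fun x hx h =>
    hf.supp x (by rw [hstar x hx]; exact h)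
  have hG0 : ∀ x ∈ T, 2 * R ≤ ‖x - a‖ → Gf T w a f x = 0 := fun x hx h => by
    unfold Gf
    rw [hf.fderiv_eq_zero (by rw [hstar x hx]; linarith)]
    simp
  have itf := (plane_integral_le hT ha hR ctf (B := n) hn0 (fun x hx => by
    by_cases h : R ≤ ‖x - a‖
    · simp only [htf, hf0 x hx h, zero_mul, abs_zero]; exact hn0
    · rw [not_le] at h
      simp only [htf, abs_mul]
      have h1 : |tr ((Ka T w a).comp (dA w a x))| ≤ n * 1 := by
        refine (abs_tr_le _).trans ?_
        gcongr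
        refine (ContinuousLinearMap.opNorm_comp_le _ _).trans ?_
        have h2 := norm_dA_le hw ha x
        rw [hstar x hx] at h2
        calc ‖Ka T w a‖ * ‖dA w a x‖ ≤ 1 * (κ * R) := by
              gcongr
              · exact norm_Ka_le
              · exact h2.trans (by gcongr)
          _ ≤ 1 := by linarith
      calc |f x| * |tr ((Ka T w a).comp (dA w a x))| ≤ 1 * (n * 1) := by
            gcongr
            exact hf.le x
        _ = n := by ring) (fun x hx h => by simp only [htf, hf0 x hx h, zero_mul])).1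
  have iGf := (plane_integral_le hT ha (R := 2 * R) (by positivity) hGc (B := κ * R)
    (by positivity) hGb hG0).1
  have iff' := (plane_integral_le hT ha hR hf.smooth.continuous (B := 1) zero_le_one
    (fun x _ => hf.le x) hf0).1
  have hdiv : (∫ x in (T : Set E), Gf T w a f x ∂μH[m]) = -∫ x in (T : Set E), tf x ∂μH[m] := by
    have h1 := integral_Gf hw hf hT ha (m := m)
    rw [integral_add iGf itf] at h1
    linarith
  set rem : E → ℝ := fun x => f x * (areaEl w x - areaEl w a * (1 + tr ((Ka T w a).comp (dA w a x))))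
    with hrem
  have crem : Continuous rem := by
    refine hf.smooth.continuous.mul ((continuous_areaEl hw).sub (continuous_const.mul
      (continuous_const.add (continuous_tr.comp (continuous_const.clm_comp ?_)))))
    unfold dA
    exact hw.smooth1.continuous.sub continuous_const
  have hremB := plane_integral_le hT ha hR crem (B := C₁ * (κ * R) ^ 2) (by positivity)
    (fun x hx => by
      by_cases h : R ≤ ‖x - a‖
      · simp only [hrem, hf0 x hx h, zero_mul, abs_zero]; positivity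
      · rw [not_le] at h
        simp only [hrem, abs_mul]
        have h1 : κ * ‖T.starProjection x - a‖ ≤ κ * R := by
          rw [hstar x hx]; gcongr
        have h2 := harea x (h1.trans hκR)
        calc |f x| * |areaEl w x - areaEl w a * (1 + tr ((Ka T w a).comp (dA w a x)))|
            ≤ 1 * (C₁ * (κ * ‖T.starProjection x - a‖) ^ 2) := by
              gcongr
              exact hf.le x
          _ ≤ C₁ * (κ * R) ^ 2 := by rw [one_mul]; gcongr)
    (fun x hx h => by simp only [hrem, hf0 x hx h, zero_mul])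
  have hplane : (∫ x in (T : Set E), f x * areaEl w x ∂μH[m]) =
      areaEl w a * (∫ x in (T : Set E), f x ∂μH[m]) +
        areaEl w a * (∫ x in (T : Set E), tf x ∂μH[m]) + ∫ x in (T : Set E), rem x ∂μH[m] := by
    have i1 : IntegrableOn (fun x => areaEl w a * f x) (T : Set E) μH[m] := iff'.const_mul _
    have i2 : IntegrableOn (fun x => areaEl w a * tf x) (T : Set E) μH[m] := itf.const_mul _
    have i3 : IntegrableOn (fun x => areaEl w a * f x + areaEl w a * tf x) (T : Set E) μH[m] :=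
      i1.add i2
    rw [← integral_const_mul, ← integral_const_mul, ← integral_add i1 i2,
      ← integral_add i3 hremB.1]
    refine integral_congr_ae (Eventually.of_forall fun x => ?_)
    simp only [htf, hrem]
    ring
  have e : (∫ x in (T : Set E), f x * areaEl w x ∂μH[m]) -
      areaEl w a * (∫ x in (T : Set E), f x ∂μH[m]) +
      areaEl w a * (∫ x in (T : Set E), Gf T w a f x ∂μH[m]) =
      ∫ x in (T : Set E), rem x ∂μH[m] := by
    rw [hplane, hdiv]; ring
  rw [e]
  refine hremB.2.trans (le_of_eq ?_)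
  rw [mul_pow 2 R]; ring

end

/-- **LOC-CMP.**  One cell: the functional relative to the curved reference differs from the flat
functional relative to the tangent plane at `a` by small errors; the last term is the flat
functional of the explicit function `psi (Gf)`, `|Gf| ≤ κ R`. -/
theorem cmp (E : Type*) [NormedAddCommGroup E] [InnerProductSpace ℝ E] [FiniteDimensional ℝ E]
    [MeasurableSpace E] [BorelSpace E] (m Q : ℕ) :
    ∃ C : ℝ, 0 < C ∧ ∀ (T : Submodule ℝ E) (w : E → E) (ε κ h₁ : ℝ) (a : E) (R U h : ℝ) (G : Set E)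
      (ν : Measure E) (P : E → E →L[ℝ] E) (f : E → ℝ), Adm T w ε κ h₁ → Tst T a R f → a ∈ T →
      Module.finrank ℝ T = m → κ * R ≤ 1 / 16 →
      CylStat m (planeOf T w a) G h ν P → closedBall (za T w a) (2 * R) ⊆ G →
      (∀ x ∈ T, ‖x - a‖ ≤ R → lap w (PS T w x) x = 0) → 0 ≤ U →
      (∀ᵐ y ∂ν, ‖co T (PsiInv T w h₁ y)‖ ≤ h₁) →
      (∀ᵐ y ∂ν, ‖T.starProjection (PsiInv T w h₁ y) - a‖ ≤ 6 / 5 * R →
        ‖co T (PsiInv T w h₁ y)‖ ≤ U) →
      (∀ᵐ y ∂ν, κ * (‖T.starProjection (PsiInv T w h₁ y) - a‖ +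
        ‖co T (PsiInv T w h₁ y)‖) ≤ 1 / 16) →
      |FSig m Q T w (fmeas T w h₁ ν) (fP T w h₁ P) f -
        Skel.Ffl m Q (planeOf T w a) ν P (psi T w a f)| ≤
      C * (∫ y in Skel.cylSet (planeOf T w a) (za T w a) (2 * R), Er T w h₁ a κ R U P y ∂ν +
        κ ^ 2 * R ^ 2 * R ^ m) +
        |Skel.Ffl m Q (planeOf T w a) ν P (psi T w a (Gf T w a f))| := by
  obtain ⟨C₁, hC₁, harea⟩ := exists_area_bound E
  have hcg := cg_pos m
  refine ⟨40 * (Module.finrank ℝ E + 1) + 1 + Q * (C₁ * (2 * cg m * 2 ^ m)), by positivity, ?_⟩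
  intro T w ε κ h₁ a R U h G ν P f H hf ha hT hκR hC hG hmin hU0 hh hU hκ
  have hw := H.ref
  have hk := hw.knn
  have hR := hf.pos
  have hε : ε ≤ 1 / 16 := H.hε.trans eps0_le
  have hGc := continuous_Gf H hf
  have hms := measure_side H hf ha hC hG hmin hU0 hh hU hκ
  obtain ⟨hX0, htp⟩ := tilt_part H hf ha hC hU0 hh
  have hps := plane_side hw hε hf hT ha hκR hC₁ hGc
    (fun x hx => abs_Gf_le H hf ha (Submodule.starProjection_eq_self_iff.2 hx))
    (fun x hx => harea T w ε κ a x hw hε ha hx)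
  have hF1 := ffl_psi (m := m) hw hT ha Q (ν := ν) (P := P) hf.smooth.continuous
  have hF2 := ffl_psi (m := m) hw hT ha Q (ν := ν) (P := P) hGc
  have hFS : FSig m Q T w (fmeas T w h₁ ν) (fP T w h₁ P) f =
      (∫ Y, f (T.starProjection Y) * (1 - eS T w Y (fP T w h₁ P Y) / 2) ∂(fmeas T w h₁ ν)) -
        Q * ∫ x in (T : Set E), f x * areaEl w x ∂μH[m] := rfl
  set X := ∫ y in Skel.cylSet (planeOf T w a) (za T w a) (2 * R), Er T w h₁ a κ R U P y ∂ν with hX
  set F₁ := Skel.Ffl m Q (planeOf T w a) ν P (psi T w a f) with hF₁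
  set F₂ := Skel.Ffl m Q (planeOf T w a) ν P (psi T w a (Gf T w a f)) with hF₂
  set F₀ := FSig m Q T w (fmeas T w h₁ ν) (fP T w h₁ P) f with hF₀
  set I₁ := ∫ Y, f (T.starProjection Y) * (1 - eS T w Y (fP T w h₁ P Y) / 2) ∂(fmeas T w h₁ ν)
    with hI₁
  set I₂ := ∫ y, f (Xa T w a y) * (1 - tilt (planeOf T w a) (P y) / 2) ∂ν with hI₂
  set I₃ := ∫ y, Gf T w a f (Xa T w a y) ∂ν with hI₃
  set I₄ := ∫ y, Gf T w a f (Xa T w a y) * (1 - tilt (planeOf T w a) (P y) / 2) ∂ν with hI₄
  set J₀ := ∫ x in (T : Set E), f x * areaEl w x ∂μH[m] with hJ₀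
  set J₁ := ∫ x in (T : Set E), f x ∂μH[m] with hJ₁
  set J₂ := ∫ x in (T : Set E), Gf T w a f x ∂μH[m] with hJ₂
  set g := areaEl w a with hg
  clear_value X F₁ F₂ F₀ I₁ I₂ I₃ I₄ J₀ J₁ J₂ g
  have key : F₀ - F₁ = (I₁ - I₂ + I₃) + (I₄ - I₃) - F₂ - Q * (J₀ - g * J₁ + g * J₂) := by
    rw [hFS, hF1, hF2]; ring
  have hQ0 : 0 ≤ (Q:ℝ) := by positivity
  have hJ3 : |(Q:ℝ) * (J₀ - g * J₁ + g * J₂)| ≤
      Q * (C₁ * (2 * cg m * 2 ^ m)) * (κ ^ 2 * R ^ 2 * R ^ m) := by
    rw [abs_mul, abs_of_nonneg hQ0]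
    calc (Q:ℝ) * |J₀ - g * J₁ + g * J₂| ≤ Q * (C₁ * (2 * cg m * 2 ^ m) * (κ ^ 2 * R ^ 2 * R ^ m)) := by
          gcongr
      _ = _ := by ring
  rw [key]
  have e1 := abs_sub (I₁ - I₂ + I₃ + (I₄ - I₃) - F₂) (Q * (J₀ - g * J₁ + g * J₂))
  have e2 := abs_sub (I₁ - I₂ + I₃ + (I₄ - I₃)) F₂
  have e3 := abs_add_le (I₁ - I₂ + I₃) (I₄ - I₃)
  have hK : 0 ≤ κ ^ 2 * R ^ 2 * R ^ m := by positivity
  have hQ1 : 0 ≤ (Q:ℝ) * (C₁ * (2 * cg m * 2 ^ m)) := by positivity
  have hn0 : (0:ℝ) ≤ 40 * ((Module.finrank ℝ E : ℝ) + 1) + 1 := by positivity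
  have h1 := mul_nonneg hQ1 hX0
  have h2 := mul_nonneg hn0 hK
  calc |I₁ - I₂ + I₃ + (I₄ - I₃) - F₂ - Q * (J₀ - g * J₁ + g * J₂)|
      ≤ 40 * ((Module.finrank ℝ E : ℝ) + 1) * X + X + |F₂| +
        Q * (C₁ * (2 * cg m * 2 ^ m)) * (κ ^ 2 * R ^ 2 * R ^ m) := by linarith
    _ ≤ (40 * ((Module.finrank ℝ E : ℝ) + 1) + 1 + Q * (C₁ * (2 * cg m * 2 ^ m))) *
        (X + κ ^ 2 * R ^ 2 * R ^ m) + |F₂| := by
      have e4 : (40 * ((Module.finrank ℝ E : ℝ) + 1) + 1 + Q * (C₁ * (2 * cg m * 2 ^ m))) *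
        (X + κ ^ 2 * R ^ 2 * R ^ m) = (40 * ((Module.finrank ℝ E : ℝ) + 1) * X + X) +
          Q * (C₁ * (2 * cg m * 2 ^ m)) * (κ ^ 2 * R ^ 2 * R ^ m) +
          Q * (C₁ * (2 * cg m * 2 ^ m)) * X +
          (40 * ((Module.finrank ℝ E : ℝ) + 1) + 1) * (κ ^ 2 * R ^ 2 * R ^ m) := by ring
      rw [e4]
      linarith

/-- bound of the function in the last term -/
lemma abs_psi_Gf_le {T : Submodule ℝ E} {w : E → E} {ε κ h₁ : ℝ} {a : E} {R : ℝ} {f : E → ℝ}
    (H : Adm T w ε κ h₁) (hf : Tst T a R f) (ha : a ∈ T) (ξ : E) :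
    |psi T w a (Gf T w a f) ξ| ≤ κ * R := by
  unfold psi
  refine abs_Gf_le H hf ha ?_
  rw [map_add, star_Ka, Submodule.starProjection_eq_self_iff.2 ha]

/-- support of the pulled back functions, in the cylinder of the tangent plane -/
lemma psi_eq_zero {T : Submodule ℝ E} {w : E → E} {ε κ h₁ : ℝ} {a : E} {R : ℝ} {f : E → ℝ}
    (H : Adm T w ε κ h₁) (ha : a ∈ T) {g : E → ℝ} (hg : ∀ x ∈ T, R < ‖x - a‖ → g x = 0) {ξ : E}
    (hξ : 9 / 8 * R < ‖PS T w a ξ - za T w a‖) : psi T w a g ξ = 0 := by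
  unfold psi
  have hw := H.ref
  have hε : ε ≤ 1 / 16 := H.hε.trans eps0_le
  refine hg _ (T.add_mem ha (Ka_mem _)) ?_
  rw [add_sub_cancel_left]
  have h1 : PS T w a (ξ - za T w a) = D0 w a (Ka T w a (ξ - za T w a)) := (D0_Ka hw _).symm
  have h2 : PS T w a (ξ - za T w a) = PS T w a ξ - za T w a := by
    rw [map_sub]
    congr 1
    exact Ref.PS_self _ _
  have h3 := hw.norm_D0_apply_le hε a (Ka T w a (ξ - za T w a))
  rw [← h1, h2] at h3
  linarith

end Vale.Agent.P214.LOC
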