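import Vale.Agent.P214.BES.Basic

/-!
# P214, block LOC-WHIT: partition of unity subordinate to a Lipschitz radius function

`R : F → ℝ` with `|R x - R y| ≤ dist x y / 8`, `R ≥ R₀ > 0`, `A` bounded: finitely many points
`p ∈ A`, smooth `χ p`, `0 ≤ χ p ≤ 1`, supported in `closedBall p (R p)`, summing to `1` on an open
neighbourhood of `A`, `‖D χ p‖ ≤ C / R p`, `‖D² χ p‖ ≤ C / (R p)²`, bounded overlap.
-/

open MeasureTheory Set Metric Module Filter
open scoped ENNReal Topology ContDiff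

set_option linter.all false

attribute [-instance] ProperSMul.toContinuousSMul IsTopologicalTorsor.toContinuousSMul IdemSemiring.toCanonicallyOrderedAdd IdemSemiring.toMulLeftMono IdemSemiring.toMulRightMono AddQuantale.instAddLeftMono AddQuantale.instAddRightMono Quantale.instMulLeftMono Quantale.instMulRightMono FiniteDimensional.rclike_to_real IsScalarTower.complexToReal FiniteDimensional.complexToReal

namespace Vale.Agent.P214.LOC

section Net

variable {F : Type*} [NormedAddCommGroup F] [NormedSpace ℝ F] [FiniteDimensional ℝ F]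

/-- the radius function is `1/8`-Lipschitz -/
def LipRad (R : F → ℝ) : Prop := ∀ x y, |R x - R y| ≤ dist x y / 8

variable {R : F → ℝ}

lemma LipRad.le (h : LipRad R) (x y : F) : R x ≤ R y + dist x y / 8 := by
  have := (abs_le.1 (h x y)).2; linarith

/-- cardinality of separated families near a point -/
lemma card_near (hL : LipRad R) {R₀ : ℝ} (h0 : 0 < R₀) (hR : ∀ x, R₀ ≤ R x) (S : Finset F)
    (hsep : ∀ c ∈ S, ∀ d ∈ S, c ≠ d → (R c + R d) / 8 ≤ dist c d) (x : F)
    (hS : ∀ p ∈ S, dist p x ≤ 4 * R p + R x) : (S.card : ℝ) ≤ 139 ^ finrank ℝ F := by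
  have hx : 0 < R x := h0.trans_le (hR x)
  have hup : ∀ p ∈ S, R p ≤ 9 / 4 * R x := by
    intro p hp
    have h1 := hL.le p x
    have h2 := hS p hp
    linarith
  have hlo : ∀ p ∈ S, 7 / 12 * R x ≤ R p := by
    intro p hp
    have h1 := hL.le x p
    have h2 := hS p hp
    rw [dist_comm] at h1
    linarith
  have := BES.card_le_of_sep S x (t := 7 / 48 * R x) (R := 69) (by positivity) (by norm_num)
    (fun p hp => by have h1 := hup p hp; have h2 := hS p hp; linarith)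
    (fun c hc d hd hcd => by
      have h1 := hsep c hc d hd hcd
      have h2 := hlo c hc
      have h3 := hlo d hd
      linarith)
  norm_num at this
  exact this

/-- existence of the Whitney net -/
theorem exists_whitney_net (hL : LipRad R) {R₀ : ℝ} (h0 : 0 < R₀) (hR : ∀ x, R₀ ≤ R x)
    (A : Set F) (hA : Bornology.IsBounded A) :
    ∃ P : Finset F, (P : Set F) ⊆ A ∧
      (∀ c ∈ P, ∀ d ∈ P, c ≠ d → (R c + R d) / 8 ≤ dist c d) ∧
      A ⊆ ⋃ p ∈ P, ball p (R p / 3) := by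
  classical
  rcases A.eq_empty_or_nonempty with rfl | ⟨z, hz⟩
  · exact ⟨∅, by simp, by simp, by simp⟩
  obtain ⟨D₀, hD₀⟩ := hA.subset_closedBall z
  set D : ℝ := max (D₀ / (R₀ / 4)) 0 with hD
  have hD0 : 0 ≤ D := le_max_right _ _
  have ht : 0 < R₀ / 4 := by positivity
  have hbd : ∀ c ∈ A, dist c z ≤ D * (R₀ / 4) := by
    intro c hc
    have h1 : dist c z ≤ D₀ := hD₀ hc
    have h2 : D₀ / (R₀ / 4) ≤ D := le_max_left _ _
    calc dist c z ≤ D₀ := h1
      _ = D₀ / (R₀ / 4) * (R₀ / 4) := by field_simp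
      _ ≤ D * (R₀ / 4) := by gcongr
  let good : ℕ → Prop := fun k => ∃ P : Finset F, (P : Set F) ⊆ A ∧
    (∀ c ∈ P, ∀ d ∈ P, c ≠ d → (R c + R d) / 8 ≤ dist c d) ∧ P.card = k
  have hgood0 : good 0 := ⟨∅, by simp, by simp, by simp⟩
  have hbound : ∀ k, good k → k ≤ ⌊(2 * D + 1) ^ finrank ℝ F⌋₊ := by
    rintro k ⟨P, hPA, hPs, rfl⟩
    refine Nat.le_floor (BES.card_le_of_sep P z ht hD0 (fun c hc => hbd c (hPA hc)) ?_)
    intro c hc d hd hcd
    have h1 := hPs c hc d hd hcd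
    have h2 := hR c
    have h3 := hR d
    linarith
  let K := Nat.findGreatest good ⌊(2 * D + 1) ^ finrank ℝ F⌋₊
  have hK : good K := Nat.findGreatest_spec (P := good) (Nat.zero_le _) hgood0
  obtain ⟨P, hPA, hPs, hPc⟩ := hK
  refine ⟨P, hPA, hPs, fun x hx => ?_⟩
  by_contra hcon
  have hfar0 : ∀ p ∈ P, R p / 3 ≤ dist x p := by
    intro p hp
    by_contra h
    exact hcon (mem_biUnion (Finset.mem_coe.2 hp) (by simpa using not_le.1 h))
  have hfar : ∀ p ∈ P, (R x + R p) / 8 ≤ dist x p := by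
    intro p hp
    have h1 := hfar0 p hp
    have h2 := hL.le x p
    have h3 : 0 < R p := h0.trans_le (hR p)
    linarith
  have hxP : x ∉ P := fun h => by
    have := hfar0 x h
    rw [dist_self] at this
    have h3 : 0 < R x := h0.trans_le (hR x)
    linarith
  have : good (K + 1) := by
    refine ⟨insert x P, ?_, ?_, ?_⟩
    · intro y hy
      rcases Finset.mem_insert.1 (Finset.mem_coe.1 hy) with rfl | hy
      · exact hx
      · exact hPA hy
    · intro c hc d hd hcd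
      rcases Finset.mem_insert.1 hc with hc1 | hc1
      · rcases Finset.mem_insert.1 hd with hd1 | hd1
        · exact absurd (hc1.trans hd1.symm) hcd
        · rw [hc1]; exact hfar d hd1
      · rcases Finset.mem_insert.1 hd with hd1 | hd1
        · rw [hd1, dist_comm, add_comm]; exact hfar c hc1
        · exact hPs c hc1 d hd1 hcd
    · rw [Finset.card_insert_of_notMem hxP, hPc]
  have h2 := Nat.le_findGreatest (hbound _ this) this
  exact absurd h2 (by simp [K])

end Net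

section Smooth

variable {F : Type*} [NormedAddCommGroup F] [NormedSpace ℝ F]

/-- smooth, values in `[0,1]`, `‖Df‖ ≤ a`, `‖D²f‖ ≤ b + a²` -/
structure Bd (f : F → ℝ) (a b : F → ℝ) : Prop where
  smooth : ContDiff ℝ ∞ f
  nonneg : ∀ x, 0 ≤ f x
  le_one : ∀ x, f x ≤ 1
  d1 : ∀ x, ‖fderiv ℝ f x‖ ≤ a x
  d2 : ∀ x, ‖fderiv ℝ (fderiv ℝ f) x‖ ≤ b x + a x ^ 2
  bnn : ∀ x, 0 ≤ b x

variable {f g : F → ℝ} {a b a' b' : F → ℝ}

lemma Bd.differentiable (h : Bd f a b) : Differentiable ℝ f :=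
  h.smooth.differentiable (by simp)

lemma Bd.differentiable' (h : Bd f a b) : Differentiable ℝ (fderiv ℝ f) :=
  (h.smooth.fderiv_right (m := ∞) (by simp)).differentiable (by simp)

lemma Bd.mul (h : Bd f a b) (h' : Bd g a' b') : Bd (fun x => f x * g x) (a + a') (b + b') := by
  have hfd : fderiv ℝ (fun x => f x * g x) = fun x => f x • fderiv ℝ g x + g x • fderiv ℝ f x := by
    funext x
    exact fderiv_fun_mul (h.differentiable x) (h'.differentiable x)
  refine ⟨h.smooth.mul h'.smooth, fun x => mul_nonneg (h.nonneg x) (h'.nonneg x),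
    fun x => mul_le_one₀ (h.le_one x) (h'.nonneg x) (h'.le_one x), fun x => ?_, fun x => ?_,
    fun x => add_nonneg (h.bnn x) (h'.bnn x)⟩
  · rw [hfd]
    have h1 := h.d1 x
    have h2 := h'.d1 x
    calc ‖f x • fderiv ℝ g x + g x • fderiv ℝ f x‖
        ≤ ‖f x • fderiv ℝ g x‖ + ‖g x • fderiv ℝ f x‖ := norm_add_le _ _
      _ = |f x| * ‖fderiv ℝ g x‖ + |g x| * ‖fderiv ℝ f x‖ := by rw [norm_smul, norm_smul]; rfl
      _ ≤ 1 * a' x + 1 * a x := by
          gcongr
          · rw [abs_of_nonneg (h.nonneg x)]; exact h.le_one x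
          · rw [abs_of_nonneg (h'.nonneg x)]; exact h'.le_one x
      _ = (a + a') x := by simp only [Pi.add_apply]; ring
  · rw [hfd]
    have e1 : fderiv ℝ (fun x => f x • fderiv ℝ g x + g x • fderiv ℝ f x) x
        = (f x • fderiv ℝ (fderiv ℝ g) x + (fderiv ℝ f x).smulRight (fderiv ℝ g x)) +
          (g x • fderiv ℝ (fderiv ℝ f) x + (fderiv ℝ g x).smulRight (fderiv ℝ f x)) := by
      have i1 := (h.differentiable x).hasFDerivAt.fun_smul (h'.differentiable' x).hasFDerivAt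
      have i2 := (h'.differentiable x).hasFDerivAt.fun_smul (h.differentiable' x).hasFDerivAt
      exact (i1.fun_add i2).fderiv
    rw [e1]
    have h1 := h.d1 x
    have h2 := h'.d1 x
    have h3 := h.d2 x
    have h4 := h'.d2 x
    have f1 : |f x| ≤ 1 := by rw [abs_of_nonneg (h.nonneg x)]; exact h.le_one x
    have g1 : |g x| ≤ 1 := by rw [abs_of_nonneg (h'.nonneg x)]; exact h'.le_one x
    have nsm : ∀ (c : ℝ) (A : F →L[ℝ] F →L[ℝ] ℝ), ‖c • A‖ ≤ |c| * ‖A‖ := fun c A =>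
      ContinuousLinearMap.opNorm_smul_le c A
    calc ‖(f x • fderiv ℝ (fderiv ℝ g) x + (fderiv ℝ f x).smulRight (fderiv ℝ g x)) +
          (g x • fderiv ℝ (fderiv ℝ f) x + (fderiv ℝ g x).smulRight (fderiv ℝ f x))‖
        ≤ (‖f x • fderiv ℝ (fderiv ℝ g) x‖ + ‖(fderiv ℝ f x).smulRight (fderiv ℝ g x)‖) +
          (‖g x • fderiv ℝ (fderiv ℝ f) x‖ + ‖(fderiv ℝ g x).smulRight (fderiv ℝ f x)‖) :=
          (ContinuousLinearMap.opNorm_add_le _ _).trans (add_le_add
            (ContinuousLinearMap.opNorm_add_le _ _) (ContinuousLinearMap.opNorm_add_le _ _))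
      _ ≤ (|f x| * ‖fderiv ℝ (fderiv ℝ g) x‖ + ‖fderiv ℝ f x‖ * ‖fderiv ℝ g x‖) +
          (|g x| * ‖fderiv ℝ (fderiv ℝ f) x‖ + ‖fderiv ℝ g x‖ * ‖fderiv ℝ f x‖) := by
          rw [ContinuousLinearMap.norm_smulRight_apply,
            ContinuousLinearMap.norm_smulRight_apply]
          gcongr
          · exact nsm _ _
          · exact nsm _ _
      _ ≤ (1 * (b' x + a' x ^ 2) + a x * a' x) + (1 * (b x + a x ^ 2) + a' x * a x) := by
          have hax : 0 ≤ a x := (norm_nonneg _).trans h1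
          have hax' : 0 ≤ a' x := (norm_nonneg _).trans h2
          gcongr
      _ = (b + b') x + (a + a') x ^ 2 := by simp only [Pi.add_apply]; ring

lemma Bd.one_sub (h : Bd f a b) : Bd (fun x => 1 - f x) a b := by
  have hfd : fderiv ℝ (fun x => 1 - f x) = fun x => -fderiv ℝ f x := by
    funext x
    rw [fderiv_fun_sub (differentiableAt_const _) (h.differentiable x)]
    simp
  refine ⟨contDiff_const.sub h.smooth, fun x => sub_nonneg.2 (h.le_one x),
    fun x => by have := h.nonneg x; linarith, fun x => ?_, fun x => ?_, h.bnn⟩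
  · rw [hfd]; simp only [norm_neg]; exact h.d1 x
  · rw [hfd, fderiv_fun_neg]
    exact (ContinuousLinearMap.opNorm_neg _).le.trans (h.d2 x)

lemma Bd.one : Bd (fun _ : F => (1 : ℝ)) 0 0 := by
  refine ⟨contDiff_const, fun x => zero_le_one, fun x => le_rfl, fun x => by simp, fun x => ?_,
    fun x => le_rfl⟩
  have : fderiv ℝ (fun _ : F => (1 : ℝ)) = fun _ => 0 := by funext x; simp
  rw [this]
  have h0 : fderiv ℝ (fun _ : F => (0 : F →L[ℝ] ℝ)) x = 0 := by simp
  rw [h0]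
  have : ‖(0 : F →L[ℝ] F →L[ℝ] ℝ)‖ = 0 := ContinuousLinearMap.opNorm_zero
  rw [this]; simp

lemma Bd.mono (h : Bd f a b) (h1 : ∀ x, a x ≤ a' x) (h2 : ∀ x, b x ≤ b' x) : Bd f a' b' :=
  ⟨h.smooth, h.nonneg, h.le_one, fun x => (h.d1 x).trans (h1 x), fun x => by
    have h3 := h.d2 x
    have h4 : 0 ≤ a x := (norm_nonneg _).trans (h.d1 x)
    have h5 : a x ^ 2 ≤ a' x ^ 2 := by
      have := h1 x
      gcongr
    have := h2 x
    linarith, fun x => (h.bnn x).trans (h2 x)⟩

lemma Bd.prod {ι : Type*} [DecidableEq ι] (s : Finset ι) {f : ι → F → ℝ} {a b : ι → F → ℝ}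
    (h : ∀ i ∈ s, Bd (f i) (a i) (b i)) :
    Bd (fun x => ∏ i ∈ s, (1 - f i x)) (∑ i ∈ s, a i) (∑ i ∈ s, b i) := by
  induction s using Finset.induction_on with
  | empty => simpa using Bd.one
  | insert i s hi ih =>
    have h1 := ih fun j hj => h j (Finset.mem_insert_of_mem hj)
    have h2 := (h i (Finset.mem_insert_self _ _)).one_sub
    have h3 := h2.mul h1
    rw [Finset.sum_insert hi, Finset.sum_insert hi]
    have : (fun x => ∏ j ∈ insert i s, (1 - f j x)) = fun x => (1 - f i x) * ∏ j ∈ s, (1 - f j x) := by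
      funext x
      rw [Finset.prod_insert hi]
    rw [this]
    exact h3

/-- telescoping partition -/
lemma exists_partition {ι : Type*} [DecidableEq ι] (s : Finset ι) {f : ι → F → ℝ}
    {a b : ι → F → ℝ} (h : ∀ i ∈ s, Bd (f i) (a i) (b i)) :
    ∃ χ : ι → F → ℝ, (∀ i ∈ s, Bd (χ i) (∑ j ∈ s, a j) (∑ j ∈ s, b j)) ∧
      (∀ i ∈ s, ∀ x, χ i x ≤ f i x) ∧
      (∀ i ∈ s, ∀ x, ∃ c, χ i x = f i x * c) ∧
      ∀ x, ∑ i ∈ s, χ i x = 1 - ∏ i ∈ s, (1 - f i x) := by
  induction s using Finset.induction_on with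
  | empty => exact ⟨fun _ _ => 0, by simp, by simp, by simp, by simp⟩
  | insert i s hi ih =>
    have hs : ∀ j ∈ s, Bd (f j) (a j) (b j) := fun j hj => h j (Finset.mem_insert_of_mem hj)
    obtain ⟨χ, h1, h2, h3, h4⟩ := ih hs
    have hfi := h i (Finset.mem_insert_self _ _)
    have ha : ∀ x, 0 ≤ a i x := fun x => (norm_nonneg _).trans (hfi.d1 x)
    classical
    refine ⟨fun j => if j = i then fun x => f i x * ∏ k ∈ s, (1 - f k x) else χ j, ?_, ?_, ?_, ?_⟩
    · intro j hj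
      rw [Finset.sum_insert hi, Finset.sum_insert hi]
      by_cases hji : j = i
      · simp only [if_pos hji]
        exact hfi.mul (Bd.prod s hs)
      · simp only [if_neg hji]
        have hjs : j ∈ s := (Finset.mem_insert.1 hj).resolve_left hji
        refine (h1 j hjs).mono (fun x => ?_) fun x => ?_
        · simp only [Pi.add_apply]; linarith [ha x]
        · simp only [Pi.add_apply]; linarith [hfi.bnn x]
    · intro j hj x
      by_cases hji : j = i
      · simp only [if_pos hji]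
        rw [hji]
        calc f i x * ∏ k ∈ s, (1 - f k x) ≤ f i x * 1 := by
              have := (Bd.prod s hs).le_one x
              have := hfi.nonneg x
              gcongr
          _ = f i x := mul_one _
      · simp only [if_neg hji]
        exact h2 j ((Finset.mem_insert.1 hj).resolve_left hji) x
    · intro j hj x
      by_cases hji : j = i
      · simp only [if_pos hji]
        exact ⟨_, by rw [hji]⟩
      · simp only [if_neg hji]
        exact h3 j ((Finset.mem_insert.1 hj).resolve_left hji) x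
    · intro x
      rw [Finset.sum_insert hi, Finset.prod_insert hi]
      simp only [if_true]
      have : ∑ j ∈ s, (if j = i then fun x => f i x * ∏ k ∈ s, (1 - f k x) else χ j) x
          = ∑ j ∈ s, χ j x := by
        refine Finset.sum_congr rfl fun j hj => ?_
        have : j ≠ i := fun h => hi (h ▸ hj)
        rw [if_neg this]
      rw [this, h4]
      ring

end Smooth

section Bump

variable (F : Type*) [NormedAddCommGroup F] [InnerProductSpace ℝ F] [FiniteDimensional ℝ F]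

omit [FiniteDimensional ℝ F] in
lemma fderiv_bdd {G : Type*} [NormedAddCommGroup G] [NormedSpace ℝ G] (g : F → G)
    (hf : ContDiff ℝ ∞ g) (hc : HasCompactSupport g) : ∃ C, ∀ x, ‖fderiv ℝ g x‖ ≤ C := by
  have hf1 : ContDiff ℝ ∞ (fderiv ℝ g) := hf.fderiv_right (m := ∞) (by simp)
  have hc1 : HasCompactSupport (fderiv ℝ g) := hc.fderiv (𝕜 := ℝ)
  exact hf1.continuous.bounded_above_of_compact_support hc1

/-- a fixed bump function with bounds of its derivatives -/
lemma exists_bump : ∃ (η : F → ℝ) (c : ℝ), 1 ≤ c ∧ ContDiff ℝ ∞ η ∧ (∀ x, 0 ≤ η x) ∧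
    (∀ x, η x ≤ 1) ∧ (∀ x, ‖x‖ ≤ 1 / 2 → η x = 1) ∧ (∀ x, 1 ≤ ‖x‖ → η x = 0) ∧
    (∀ x, ‖fderiv ℝ η x‖ ≤ c) ∧ (∀ x, ‖fderiv ℝ (fderiv ℝ η) x‖ ≤ c) := by
  obtain ⟨f, hin, hout⟩ : ∃ f : ContDiffBump (0 : F), f.rIn = 1 / 2 ∧ f.rOut = 1 :=
    ⟨⟨1 / 2, 1, by norm_num, by norm_num⟩, rfl, rfl⟩
  have hf : ContDiff ℝ ∞ (f : F → ℝ) := f.contDiff
  have hc : HasCompactSupport (f : F → ℝ) := f.hasCompactSupport
  have hone : ∀ x : F, ‖x‖ ≤ 1 / 2 → f x = 1 := fun x hx =>
    f.one_of_mem_closedBall (by rw [hin]; simpa using hx)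
  have hzer : ∀ x : F, 1 ≤ ‖x‖ → f x = 0 := fun x hx =>
    f.zero_of_le_dist (by rw [hout]; simpa using hx)
  have hnn : ∀ x : F, 0 ≤ f x := fun x => f.nonneg
  have hle : ∀ x : F, f x ≤ 1 := fun x => f.le_one
  generalize (f : F → ℝ) = g at hf hc hone hzer hnn hle
  have hf1 : ContDiff ℝ ∞ (fderiv ℝ g) := hf.fderiv_right (m := ∞) (by simp)
  have hc1 : HasCompactSupport (fderiv ℝ g) := hc.fderiv (𝕜 := ℝ)
  obtain ⟨C1, hC1⟩ := fderiv_bdd F g hf hc
  obtain ⟨C2, hC2⟩ := fderiv_bdd F (fderiv ℝ g) hf1 hc1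
  exact ⟨g, max 1 (max C1 C2), le_max_left _ _, hf, hnn, hle, hone, hzer,
    fun x => (hC1 x).trans ((le_max_left _ _).trans (le_max_right _ _)),
    fun x => (hC2 x).trans ((le_max_right _ _).trans (le_max_right _ _))⟩

variable {F}

/-- rescaled bump -/
noncomputable def sc (η : F → ℝ) (p : F) (r : ℝ) (x : F) : ℝ := η (r⁻¹ • (x - p))

lemma fderiv_sc {G : Type*} [NormedAddCommGroup G] [NormedSpace ℝ G] {η : F → G}
    (hη : Differentiable ℝ η) (p : F) (r : ℝ) (x : F) :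
    fderiv ℝ (fun x => η (r⁻¹ • (x - p))) x = r⁻¹ • fderiv ℝ η (r⁻¹ • (x - p)) := by
  have h1 : HasFDerivAt (fun x : F => r⁻¹ • (x - p)) (r⁻¹ • ContinuousLinearMap.id ℝ F) x :=
    ((hasFDerivAt_id x).sub_const p).const_smul r⁻¹
  have h2 := (hη (r⁻¹ • (x - p))).hasFDerivAt.comp x h1
  have h3 := h2.fderiv
  rw [show (η ∘ fun x => r⁻¹ • (x - p)) = fun x => η (r⁻¹ • (x - p)) from rfl] at h3
  rw [h3]
  ext v
  simp

lemma fderiv2_sc {η : F → ℝ} (hη : ContDiff ℝ ∞ η) (p : F) (r : ℝ) (x : F) :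
    fderiv ℝ (fderiv ℝ (fun x => η (r⁻¹ • (x - p)))) x =
      r⁻¹ • r⁻¹ • fderiv ℝ (fderiv ℝ η) (r⁻¹ • (x - p)) := by
  have h1 : fderiv ℝ (fun x => η (r⁻¹ • (x - p))) =
      fun x => r⁻¹ • fderiv ℝ η (r⁻¹ • (x - p)) := by
    funext x
    exact fderiv_sc (hη.differentiable (by simp)) p r x
  have hd : Differentiable ℝ (fderiv ℝ η) :=
    (hη.fderiv_right (m := ∞) (by simp)).differentiable (by simp)
  rw [h1]
  have h2 : DifferentiableAt ℝ (fun x => fderiv ℝ η (r⁻¹ • (x - p))) x := by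
    refine (hd _).comp x ?_
    exact ((differentiableAt_id.sub_const p).const_smul r⁻¹)
  have h3 := (h2.hasFDerivAt.fun_const_smul r⁻¹).fderiv
  rw [h3, fderiv_sc hd]

/-- the bound for a rescaled bump -/
lemma bd_sc {η : F → ℝ} {c : ℝ} (h1 : 1 ≤ c) (hη : ContDiff ℝ ∞ η) (h0 : ∀ x, 0 ≤ η x)
    (hle : ∀ x, η x ≤ 1) (hz : ∀ x, 1 ≤ ‖x‖ → η x = 0)
    (hd1 : ∀ x, ‖fderiv ℝ η x‖ ≤ c) (hd2 : ∀ x, ‖fderiv ℝ (fderiv ℝ η) x‖ ≤ c) (p : F) {r : ℝ}
    (hr : 0 < r) :
    Bd (sc η p r) (fun x => if dist x p ≤ r then c / r else 0)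
      (fun x => if dist x p ≤ r then c / r ^ 2 else 0) := by
  have hzero : ∀ x, ¬ dist x p ≤ r → sc η p r =ᶠ[𝓝 x] fun _ => 0 := by
    intro x hx
    have hopen : IsOpen {x | r < dist x p} := isOpen_lt continuous_const (by fun_prop)
    filter_upwards [hopen.mem_nhds (not_le.1 hx)] with y hy
    refine hz _ ?_
    rw [norm_smul, norm_inv, Real.norm_of_nonneg hr.le, ← dist_eq_norm, inv_mul_eq_div,
      one_le_div hr]
    exact le_of_lt hy
  have hs : ContDiff ℝ ∞ (sc η p r) :=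
    hη.comp (contDiff_const.smul (contDiff_id.sub contDiff_const))
  refine ⟨hs, fun x => h0 _, fun x => hle _, fun x => ?_, fun x => ?_, fun x => ?_⟩
  · split_ifs with hx
    · have : fderiv ℝ (sc η p r) x = r⁻¹ • fderiv ℝ η (r⁻¹ • (x - p)) :=
        fderiv_sc (hη.differentiable (by simp)) p r x
      rw [this, norm_smul, norm_inv, Real.norm_of_nonneg hr.le, inv_mul_eq_div]
      gcongr
      exact hd1 _
    · rw [(hzero x hx).fderiv_eq]; simp
  · split_ifs with hx
    · have : fderiv ℝ (fderiv ℝ (sc η p r)) x = r⁻¹ • r⁻¹ • fderiv ℝ (fderiv ℝ η) (r⁻¹ • (x - p)) :=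
        fderiv2_sc hη p r x
      rw [this]
      have e1 := ContinuousLinearMap.opNorm_smul_le r⁻¹
        (r⁻¹ • fderiv ℝ (fderiv ℝ η) (r⁻¹ • (x - p)))
      have e2 := ContinuousLinearMap.opNorm_smul_le r⁻¹ (fderiv ℝ (fderiv ℝ η) (r⁻¹ • (x - p)))
      have e3 := hd2 (r⁻¹ • (x - p))
      rw [norm_inv, Real.norm_of_nonneg hr.le] at e1 e2
      have hri : 0 ≤ r⁻¹ := by positivity
      calc _ ≤ r⁻¹ * ‖r⁻¹ • fderiv ℝ (fderiv ℝ η) (r⁻¹ • (x - p))‖ := e1
        _ ≤ r⁻¹ * (r⁻¹ * c) := by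
            refine mul_le_mul_of_nonneg_left (e2.trans ?_) hri
            exact mul_le_mul_of_nonneg_left e3 hri
        _ = c / r ^ 2 := by field_simp
        _ ≤ _ := by
            have : 0 ≤ (c / r) ^ 2 := by positivity
            linarith
    · have hz2 : fderiv ℝ (sc η p r) =ᶠ[𝓝 x] fun _ => 0 := by
        have := (hzero x hx).fderiv (𝕜 := ℝ)
        refine this.trans (Eventually.of_forall fun y => ?_)
        simp
      rw [hz2.fderiv_eq]
      have h0' : fderiv ℝ (fun _ : F => (0 : F →L[ℝ] ℝ)) x = 0 := by simp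
      rw [h0']
      have : ‖(0 : F →L[ℝ] F →L[ℝ] ℝ)‖ = 0 := ContinuousLinearMap.opNorm_zero
      rw [this]; simp
  · split_ifs <;> positivity

end Bump

section Main

variable (F : Type*) [NormedAddCommGroup F] [InnerProductSpace ℝ F] [FiniteDimensional ℝ F]

/-- **Whitney partition of unity for a Lipschitz radius function.** -/
theorem whitney : ∃ C : ℝ, 1 ≤ C ∧ ∀ (A : Set F) (R : F → ℝ) (R₀ : ℝ), Bornology.IsBounded A →
    0 < R₀ → (∀ x, R₀ ≤ R x) → LipRad R →
    ∃ (P : Finset F) (χ : F → F → ℝ), (P : Set F) ⊆ A ∧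
      (∀ p ∈ P, ContDiff ℝ ∞ (χ p)) ∧
      (∀ p ∈ P, ∀ x, 0 ≤ χ p x ∧ χ p x ≤ 1) ∧
      (∀ p ∈ P, ∀ x, R p ≤ dist x p → χ p x = 0) ∧
      (∀ p ∈ P, ∀ x, ‖fderiv ℝ (χ p) x‖ ≤ C / R p) ∧
      (∀ p ∈ P, ∀ x, ‖fderiv ℝ (fderiv ℝ (χ p)) x‖ ≤ C / R p ^ 2) ∧
      (∀ x, ∑ p ∈ P, χ p x ≤ 1) ∧
      (∃ U : Set F, IsOpen U ∧ A ⊆ U ∧ ∀ x ∈ U, ∑ p ∈ P, χ p x = 1) ∧
      (∀ x, ((P.filter fun p => dist p x ≤ 4 * R p + R x).card : ℝ) ≤ C) ∧
      (∀ c ∈ P, ∀ d ∈ P, c ≠ d → (R c + R d) / 8 ≤ dist c d) := by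
  classical
  obtain ⟨η, c, hc1, hη, h0, hle, hone, hz, hd1, hd2⟩ := exists_bump F
  set K : ℝ := 139 ^ finrank ℝ F with hK
  have hK1 : 1 ≤ K := one_le_pow₀ (by norm_num)
  set C : ℝ := K + 4 * (K * c) + 4 * (K * c) ^ 2 with hC
  have hKc : 1 ≤ K * c := one_le_mul_of_one_le_of_one_le hK1 hc1
  have hCK : K ≤ C := by nlinarith
  refine ⟨C, hK1.trans hCK, fun A R R₀ hA hR0 hR hL => ?_⟩
  obtain ⟨P, hPA, hsep, hcov⟩ := exists_whitney_net hL hR0 hR A hA
  have hpos : ∀ x, 0 < R x := fun x => hR0.trans_le (hR x)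
  have hbd : ∀ p ∈ P, Bd (sc η p (R p)) (fun x => if dist x p ≤ R p then c / R p else 0)
      (fun x => if dist x p ≤ R p then c / R p ^ 2 else 0) := fun p _ =>
    bd_sc hc1 hη h0 hle hz hd1 hd2 p (hpos p)
  obtain ⟨χ, hχ1, hχ2, hχ3, hχ4⟩ := exists_partition P hbd
  -- counting at a point
  have hcard : ∀ x, ((P.filter fun p => dist p x ≤ 4 * R p + R x).card : ℝ) ≤ K := by
    intro x
    refine card_near hL hR0 hR _ ?_ x ?_
    · intro a ha b hb hab
      exact hsep a (Finset.mem_filter.1 ha).1 b (Finset.mem_filter.1 hb).1 hab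
    · intro p hp
      exact (Finset.mem_filter.1 hp).2
  have hcomp : ∀ p x, dist x p ≤ R p → R x ≤ 9 / 8 * R p ∧ 7 / 8 * R p ≤ R x := by
    intro p x hx
    have h1 := hL.le x p
    have h2 := hL.le p x
    rw [dist_comm] at h2
    constructor <;> linarith
  -- sums of bounds
  have hcount : ∀ (x : F) (v : ℝ → ℝ) (w : ℝ), 0 ≤ w → (∀ p ∈ P, dist x p ≤ R p → v (R p) ≤ w) →
      ∑ p ∈ P, (if dist x p ≤ R p then v (R p) else 0) ≤ K * w := by
    intro x v w hw hv
    rw [← Finset.sum_filter]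
    have h1 : ∑ p ∈ P.filter (fun p => dist x p ≤ R p), v (R p)
        ≤ ∑ p ∈ P.filter (fun p => dist x p ≤ R p), w :=
      Finset.sum_le_sum fun p hp => hv p (Finset.mem_filter.1 hp).1 (Finset.mem_filter.1 hp).2
    refine h1.trans ?_
    rw [Finset.sum_const, nsmul_eq_mul]
    refine mul_le_mul_of_nonneg_right (le_trans ?_ (hcard x)) hw
    exact_mod_cast Finset.card_le_card (fun p hp => by
      rw [Finset.mem_filter] at hp ⊢
      refine ⟨hp.1, ?_⟩
      rw [dist_comm]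
      have := hpos p; have := hpos x
      linarith [hp.2])
  have hA1 : ∀ p ∈ P, ∀ x, dist x p ≤ R p →
      (∑ q ∈ P, fun x => if dist x q ≤ R q then c / R q else 0) x ≤ K * c * (9 / 7 / R p) := by
    intro p hp x hx
    rw [Finset.sum_apply]
    rw [mul_assoc]
    refine hcount x (fun t => c / t) (c * (9 / 7 / R p)) (by have := hpos p; positivity) ?_
    intro q hq hxq
    have h1 := hcomp p x hx
    have h2 := hcomp q x hxq
    have hp0 := hpos p
    have hq0 := hpos q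
    rw [div_eq_mul_inv]
    refine mul_le_mul_of_nonneg_left ?_ (by linarith)
    rw [inv_le_comm₀ hq0 (by positivity)]
    rw [inv_div]
    linarith
  have hB1 : ∀ p ∈ P, ∀ x, dist x p ≤ R p →
      (∑ q ∈ P, fun x => if dist x q ≤ R q then c / R q ^ 2 else 0) x
        ≤ K * c * (9 / 7 / R p) ^ 2 := by
    intro p hp x hx
    rw [Finset.sum_apply]
    rw [mul_assoc]
    refine hcount x (fun t => c / t ^ 2) (c * (9 / 7 / R p) ^ 2) (by have := hpos p; positivity) ?_
    intro q hq hxq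
    have h1 := hcomp p x hx
    have h2 := hcomp q x hxq
    have hp0 := hpos p
    have hq0 := hpos q
    rw [div_eq_mul_inv]
    refine mul_le_mul_of_nonneg_left ?_ (by linarith)
    rw [← inv_pow]
    have : (R q)⁻¹ ≤ 9 / 7 / R p := by
      rw [inv_le_comm₀ hq0 (by positivity), inv_div]
      linarith
    have hqi : 0 ≤ (R q)⁻¹ := by positivity
    gcongr
  have hsupp : ∀ p ∈ P, ∀ x, R p ≤ dist x p → χ p x = 0 := by
    intro p hp x hx
    obtain ⟨k, hk⟩ := hχ3 p hp x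
    rw [hk]
    have : sc η p (R p) x = 0 := by
      refine hz _ ?_
      rw [norm_smul, norm_inv, Real.norm_of_nonneg (hpos p).le, ← dist_eq_norm, inv_mul_eq_div,
        one_le_div (hpos p)]
      exact hx
    rw [this, zero_mul]
  have hzero : ∀ p ∈ P, ∀ x, ¬ dist x p ≤ R p → χ p =ᶠ[𝓝 x] fun _ => 0 := by
    intro p hp x hx
    have hopen : IsOpen {x | R p < dist x p} := isOpen_lt continuous_const (by fun_prop)
    filter_upwards [hopen.mem_nhds (not_le.1 hx)] with y hy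
    exact hsupp p hp y (le_of_lt hy)
  refine ⟨P, χ, hPA, fun p hp => (hχ1 p hp).smooth,
    fun p hp x => ⟨(hχ1 p hp).nonneg x, (hχ1 p hp).le_one x⟩, hsupp, ?_, ?_, ?_, ?_, ?_, hsep⟩
  · intro p hp x
    have hp0 := hpos p
    by_cases hx : dist x p ≤ R p
    · calc ‖fderiv ℝ (χ p) x‖ ≤ _ := (hχ1 p hp).d1 x
        _ ≤ K * c * (9 / 7 / R p) := hA1 p hp x hx
        _ = (K * c * (9 / 7)) / R p := by ring
        _ ≤ C / R p := by
            gcongr
            nlinarith
    · rw [(hzero p hp x hx).fderiv_eq]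
      have h0' : fderiv ℝ (fun _ : F => (0 : ℝ)) x = 0 := by simp
      rw [h0', norm_zero]
      have : 0 ≤ C := by linarith
      positivity
  · intro p hp x
    have hp0 := hpos p
    by_cases hx : dist x p ≤ R p
    · have e1 := (hχ1 p hp).d2 x
      have e2 := hA1 p hp x hx
      have e3 := hB1 p hp x hx
      have e0 : 0 ≤ (∑ q ∈ P, fun x => if dist x q ≤ R q then c / R q else 0) x :=
        (norm_nonneg _).trans ((hχ1 p hp).d1 x)
      calc ‖fderiv ℝ (fderiv ℝ (χ p)) x‖ ≤ _ := e1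
        _ ≤ K * c * (9 / 7 / R p) ^ 2 + (K * c * (9 / 7 / R p)) ^ 2 := by gcongr
        _ = (K * c * (9 / 7) ^ 2 + (K * c) ^ 2 * (9 / 7) ^ 2) / R p ^ 2 := by
            field_simp
        _ ≤ C / R p ^ 2 := by
            gcongr
            nlinarith
    · have hz2 : fderiv ℝ (χ p) =ᶠ[𝓝 x] fun _ => 0 := by
        have := (hzero p hp x hx).fderiv (𝕜 := ℝ)
        refine this.trans (Eventually.of_forall fun y => ?_)
        simp
      rw [hz2.fderiv_eq]
      have h0' : fderiv ℝ (fun _ : F => (0 : F →L[ℝ] ℝ)) x = 0 := by simp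
      rw [h0']
      have : ‖(0 : F →L[ℝ] F →L[ℝ] ℝ)‖ = 0 := ContinuousLinearMap.opNorm_zero
      rw [this]
      have : 0 ≤ C := by linarith
      positivity
  · intro x
    rw [hχ4]
    have : 0 ≤ ∏ i ∈ P, (1 - sc η i (R i) x) :=
      Finset.prod_nonneg fun i _ => sub_nonneg.2 (hle _)
    linarith
  · refine ⟨⋃ p ∈ P, ball p (R p / 3), isOpen_biUnion fun p _ => isOpen_ball, hcov, ?_⟩
    intro x hx
    rw [hχ4]
    obtain ⟨p, hp, hxp⟩ := mem_iUnion₂.1 hx
    have h1 : sc η p (R p) x = 1 := by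
      refine hone _ ?_
      rw [norm_smul, norm_inv, Real.norm_of_nonneg (hpos p).le, ← dist_eq_norm, inv_mul_eq_div,
        div_le_iff₀ (hpos p)]
      have := mem_ball.1 hxp
      have := hpos p
      linarith
    have : ∏ i ∈ P, (1 - sc η i (R i) x) = 0 := by
      refine Finset.prod_eq_zero hp ?_
      rw [h1, sub_self]
    rw [this, sub_zero]
  · intro x
    exact (hcard x).trans hCK

end Main

end Vale.Agent.P214.LOC
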